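import Vale.Agent.P354S.Int

/-!
Trigonometric functions and uniqueness for the Fourier transform.
-/

open scoped ContDiff
open MeasureTheory Set Filter Topology

namespace Vale.Agent.P354S

open Vale.Agent.P354H (X3 e pd pdl Sb pd_sm pdl_sm dif haar)
open Vale.Agent.P354K

/-- the phase -/
noncomputable def dot (ξ z : X3) : ℝ := ∑ i, co i ξ * co i z

theorem dot_sm (ξ : X3) : Sm (dot ξ) :=
  ContDiff.sum fun i _ => contDiff_const.mul (co_sm i)

theorem pd_dot (j : Fin 3) (ξ : X3) : pd j (dot ξ) = fun _ => co j ξ := by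
  unfold dot
  rw [pd_sum j _ fun i => contDiff_const.mul (co_sm i)]
  funext z
  simp only [pd_cmul j _ (co_sm _), pd_co]
  simp

theorem pd_cos (j : Fin 3) (ξ : X3) :
    pd j (fun z => Real.cos (dot ξ z)) = fun z => -co j ξ * Real.sin (dot ξ z) := by
  rw [pd_comp j Real.hasDerivAt_cos (dot_sm ξ), pd_dot]
  funext z; ring

theorem pd_sin (j : Fin 3) (ξ : X3) :
    pd j (fun z => Real.sin (dot ξ z)) = fun z => co j ξ * Real.cos (dot ξ z) := by
  rw [pd_comp j Real.hasDerivAt_sin (dot_sm ξ), pd_dot]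
  funext z; ring

theorem cos_sm (ξ : X3) : Sm fun z => Real.cos (dot ξ z) := Real.contDiff_cos.comp (dot_sm ξ)
theorem sin_sm (ξ : X3) : Sm fun z => Real.sin (dot ξ z) := Real.contDiff_sin.comp (dot_sm ξ)

theorem trig_bd (ξ : X3) (α : List (Fin 3)) :
    (∃ C, ∀ z, |pdl α (fun z => Real.cos (dot ξ z)) z| ≤ C) ∧
      ∃ C, ∀ z, |pdl α (fun z => Real.sin (dot ξ z)) z| ≤ C := by
  induction α with
  | nil => exact ⟨⟨1, fun _ => Real.abs_cos_le_one _⟩, 1, fun _ => Real.abs_sin_le_one _⟩
  | cons j α ih =>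
    obtain ⟨⟨C, h⟩, C', h'⟩ := ih
    simp only [pdl]
    rw [pd_cos, pd_sin, pdl_cmul α _ (cos_sm ξ), pdl_cmul α _ (sin_sm ξ)]
    exact ⟨⟨|-co j ξ| * C', fun z => by
      rw [abs_mul]; exact mul_le_mul_of_nonneg_left (h' z) (abs_nonneg _)⟩, |co j ξ| * C,
      fun z => by rw [abs_mul]; exact mul_le_mul_of_nonneg_left (h z) (abs_nonneg _)⟩

/-- cosine and sine -/
noncomputable def trg : Bool → X3 → R
  | true, ξ => ⟨_, tg_of_bdd (cos_sm ξ) fun α => (trig_bd ξ α).1⟩
  | false, ξ => ⟨_, tg_of_bdd (sin_sm ξ) fun α => (trig_bd ξ α).2⟩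

theorem d_trg (j : Fin 3) (b : Bool) (ξ : X3) : ∃ c : ℝ, d j (trg b ξ) = c • trg (!b) ξ := by
  cases b
  · exact ⟨co j ξ, Subtype.ext (pd_sin j ξ)⟩
  · exact ⟨-co j ξ, Subtype.ext (pd_cos j ξ)⟩

theorem dual_eq (L : StrongDual ℝ X3) : ∃ ξ, ∀ z, L z = dot ξ z := by
  refine ⟨(L (1, 0, 0), L (0, 1, 0), L (0, 0, 1)), fun z => ?_⟩
  have e : z = z.1 • ((1, 0, 0) : X3) + z.2.1 • ((0, 1, 0) : X3) + z.2.2 • ((0, 0, 1) : X3) := by
    ext <;> simp
  conv_lhs => rw [e]
  simp only [map_add, map_smul, smul_eq_mul, dot, Fin.sum_univ_three, co]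
  simp
  ring

theorem four_uniq {F : X3 → ℝ} (hc : Continuous F) (hi : Integrable F) {D : Set X3} (hD : Dense D)
    (h1 : ∀ ξ ∈ D, ∫ z, F z * Real.cos (dot ξ z) = 0)
    (h2 : ∀ ξ ∈ D, ∫ z, F z * Real.sin (dot ξ z) = 0) (z : X3) : F z = 0 := by
  have := haar
  have hd : Continuous fun p : X3 × X3 => dot p.1 p.2 :=
    continuous_finsetSum _ fun i _ => ((co_sm i).continuous.comp continuous_fst).mul
      ((co_sm i).continuous.comp continuous_snd)
  have key : ∀ g : ℝ → ℝ, Continuous g → (∀ x, |g x| ≤ 1) →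
      (∀ ξ ∈ D, ∫ z, F z * g (dot ξ z) = 0) → ∀ ξ, ∫ z, F z * g (dot ξ z) = 0 := by
    intro g hg hb h ξ
    have k : Continuous fun ξ => ∫ z, F z * g (dot ξ z) := by
      refine continuous_of_dominated (bound := fun z => ‖F z‖) (fun ξ =>
        (hc.mul (hg.comp (dot_sm ξ).continuous)).aestronglyMeasurable)
        (fun ξ => .of_forall fun z => ?_) hi.norm (.of_forall fun z =>
          continuous_const.mul (hg.comp (hd.comp (continuous_id.prodMk continuous_const))))
      rw [norm_mul]
      exact mul_le_of_le_one_right (norm_nonneg _) (hb _)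
    exact congrFun (Continuous.ext_on hD k continuous_const h) ξ
  have k1 := key _ Real.continuous_cos Real.abs_cos_le_one h1
  have k2 := key _ Real.continuous_sin Real.abs_sin_le_one h2
  have fin : ∀ G : X3 → ℝ, Integrable G →
      IsFiniteMeasure (volume.withDensity fun z => ENNReal.ofReal (G z)) := fun G hG =>
    isFiniteMeasure_withDensity_ofReal hG.2
  have ch : ∀ G : X3 → ℝ, Continuous G → ∀ L : StrongDual ℝ X3,
      charFunDual (volume.withDensity fun z => ENNReal.ofReal (G z)) L =
        ∫ z, (max (G z) 0 : ℝ) • Complex.exp (L z * Complex.I) := fun G hG L => by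
    rw [charFunDual_apply, integral_withDensity_eq_integral_toReal_smul
      hG.measurable.ennreal_ofReal (.of_forall fun _ => ENNReal.ofReal_lt_top)]
    simp only [ENNReal.toReal_ofReal']
  have f1 := fin F hi
  have f2 := fin (fun z => -F z) hi.neg
  have hm : (volume.withDensity fun z => ENNReal.ofReal (F z)) =
      volume.withDensity fun z => ENNReal.ofReal (-F z) := by
    refine Measure.ext_of_charFunDual (funext fun L => ?_)
    obtain ⟨ξ, hξ⟩ := dual_eq L
    have hb : ∀ G : X3 → ℝ, Continuous G → Integrable G →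
        Integrable fun z => (G z : ℝ) • Complex.exp (L z * Complex.I) := fun G hG hG' =>
      hG'.norm.mono' (hG.smul (Complex.continuous_exp.comp ((Complex.continuous_ofReal.comp
        L.continuous).mul continuous_const))).aestronglyMeasurable (.of_forall fun z => by
          rw [norm_smul, Complex.norm_exp_ofReal_mul_I, mul_one])
    rw [ch F hc, ch (fun z => -F z) hc.neg, ← sub_eq_zero, ← integral_sub
      (hb _ (hc.max continuous_const) hi.pos_part)
      (hb (fun z => max (-F z) 0) (hc.neg.max continuous_const) hi.neg_part)]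
    have e : ∀ z, (max (F z) 0 : ℝ) • Complex.exp (L z * Complex.I) -
        (max (-F z) 0 : ℝ) • Complex.exp (L z * Complex.I) =
        ((F z * Real.cos (dot ξ z) : ℝ) : ℂ) + ((F z * Real.sin (dot ξ z) : ℝ) : ℂ) * Complex.I :=
      fun z => by
      rw [← sub_smul, max_zero_sub_max_neg_zero_eq_self, Complex.exp_mul_I, hξ]
      simp only [Complex.real_smul]
      push_cast
      ring
    have i1 : Integrable fun z => F z * Real.cos (dot ξ z) :=
      hi.mul_bdd (c := 1) (cos_sm ξ).continuous.aestronglyMeasurable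
        (.of_forall fun _ => Real.abs_cos_le_one _)
    have i2 : Integrable fun z => F z * Real.sin (dot ξ z) :=
      hi.mul_bdd (c := 1) (sin_sm ξ).continuous.aestronglyMeasurable
        (.of_forall fun _ => Real.abs_sin_le_one _)
    simp only [e]
    rw [integral_add i1.ofReal (i2.ofReal.mul_const _), integral_mul_const,
      integral_complex_ofReal, integral_complex_ofReal, k1, k2]
    simp
  have ha := (withDensity_eq_iff_of_sigmaFinite hc.measurable.ennreal_ofReal.aemeasurable
    hc.neg.measurable.ennreal_ofReal.aemeasurable).1 hm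
  have hz : F =ᵐ[volume] fun _ => 0 := by
    filter_upwards [ha] with z hz
    have := congrArg ENNReal.toReal hz
    rw [ENNReal.toReal_ofReal', ENNReal.toReal_ofReal'] at this
    rw [← max_zero_sub_max_neg_zero_eq_self (F z), this]
    exact sub_self _
  exact congrFun ((hc.ae_eq_iff_eq volume continuous_const).1 hz) z

end Vale.Agent.P354S
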