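import Vale.Agent.P354S.Ops

/-!
Limits of sequences that are bounded in all norms and Cauchy in the lowest norm.
-/

open scoped ContDiff
open MeasureTheory Set Filter Topology

namespace Vale.Agent.P354S

open Vale.Agent.P354H (X3 e pd pdl Sb pd_sm pdl_sm dif haar)
open Vale.Agent.P354K

variable {ψ : X3 → ℝ}

theorem l2_sub' {W : X3 → ℝ} {f g : R} {a b : ℝ} (hf : L2 (fun z => W z * f.1 z) a)
    (hg : L2 (fun z => W z * g.1 z) b) : L2 (fun z => W z * (f - g).1 z) (a + b) := by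
  have k := l2_mono hg (g := fun z => -(W z * g.1 z)) hg.1.neg zero_le_one fun z => by
    rw [abs_neg, one_mul]
  rw [one_mul] at k
  refine (congrArg (fun F => L2 F _) (funext fun z => ?_)).mp (l2_add hf k)
  show W z * f.1 z + -(W z * g.1 z) = W z * (f.1 z - g.1 z)
  ring

theorem interp (h : Wt ψ) (a : Fin 3) : ∃ T : ℝ, ∀ (H y : R) (ε K : ℝ), H = ps h * ps h * y →
    L2 (fun z => sw ψ z * H.1 z) ε → L2 (fun z => sw ψ z * (d a H).1 z) K →
    L2 (fun z => sw ψ z * (d a (d a H)).1 z) K →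
    L2 (fun z => sw ψ z * (d a H).1 z) √(ε * (T * K)) := by
  obtain ⟨t, ht, et⟩ := ht_ps h a
  obtain ⟨C, hC, hb⟩ := ht.bdd
  refine ⟨1 + C, fun H y ε K hH h0 h1 h2 => l2_le (l2_qq h1) (Real.le_sqrt_of_sq_le ?_)⟩
  have e1 : ∀ y, d a (ps h * ps h * y) = ps h * ps h * (d a y + t * y) := fun y => by
    rw [d_mul, et]; ring
  obtain ⟨y1, hy⟩ : ∃ y1, y1 = d a y + t * y := ⟨_, rfl⟩
  have e2 : d a H = ps h * ps h * y1 := by rw [hH, e1, hy]
  have e3 : ps h * ps h * d a y1 = d a (d a H) - t * d a H := by rw [e2, e1]; ring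
  have k1 : qq ψ (d a y1) ≤ (1 + C) * K := by
    rw [← qq_ps h, e3]
    have k := l2_mono h1 (g := fun z => sw ψ z * (t * d a H).1 z)
      ((lw_sw h).sm.continuous.mul (cont _)) hC fun z => by
        show |sw ψ z * (t.1 z * (d a H).1 z)| ≤ _
        rw [mul_left_comm, abs_mul]
        exact mul_le_mul_of_nonneg_right (hb () z) (abs_nonneg _)
    exact (qq_le (l2_sub' h2 k)).trans (le_of_eq (by ring))
  have k2 := ibp (w := H) (hH ▸ (fs_ps h y).dec h) y1 a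
  have k3 := (neg_le_abs _).trans ((pair_le h h0 (d a y1)).2.trans
    (mul_le_mul_of_nonneg_left k1 h0.2.2.1))
  rw [k2, neg_neg, e2, I_sq] at k3
  rwa [e2, qq_ps]

theorem cau (h : Wt ψ) {v : ℕ → R} (hy : ∀ N, ∃ y, v N = ps h * ps h * y)
    (hK : ∀ α, ∃ K, ∀ N, L2 (fun z => sw ψ z * (dw α (v N)).1 z) K) {ε : ℕ → ℝ}
    (he : Tendsto ε atTop (𝓝 0))
    (h0 : ∀ N M, N ≤ M → L2 (fun z => sw ψ z * (v M - v N).1 z) (ε N)) (α : List (Fin 3)) :
    ∃ ε' : ℕ → ℝ, Tendsto ε' atTop (𝓝 0) ∧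
      ∀ N M, N ≤ M → L2 (fun z => sw ψ z * (dw α (v M - v N)).1 z) (ε' N) := by
  induction α using List.reverseRecOn with
  | nil => exact ⟨ε, he, h0⟩
  | append_singleton α a ih =>
    obtain ⟨e1, he1, h1⟩ := ih
    obtain ⟨T, hT⟩ := interp h a
    obtain ⟨K1, hK1⟩ := hK (α ++ [a])
    obtain ⟨K2, hK2⟩ := hK (α ++ [a] ++ [a])
    refine ⟨fun N => √(e1 N * (T * (K1 + K1 + (K2 + K2)))),
      by simpa using (he1.mul_const _).sqrt, fun N M hNM => ?_⟩
    obtain ⟨y, hy⟩ : ∃ y, dw α (v M - v N) = ps h * ps h * y := by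
      obtain ⟨y1, e1⟩ := hy M
      obtain ⟨y2, e2⟩ := hy N
      rw [e1, e2, ← mul_sub]
      exact dw_ps h α _
    have k1 := l2_sub' (hK1 M) (hK1 N)
    have k2 := l2_sub' (hK2 M) (hK2 N)
    rw [← dw_sub, dw_snoc] at k1 k2
    rw [dw_snoc] at k2 ⊢
    exact hT _ y _ _ hy (h1 N M hNM) (l2_le k1 (le_add_of_nonneg_right k2.2.2.1))
      (l2_le k2 (le_add_of_nonneg_left k1.2.2.1))

theorem lim_seq (hs : SOBW) (hl : LIM) (h : Wt ψ) {v : ℕ → R}
    (hy : ∀ N, ∃ y, v N = ps h * ps h * y)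
    (hK : ∀ α, ∃ K, ∀ N, L2 (fun z => sw ψ z * (dw α (v N)).1 z) K) {ε : ℕ → ℝ}
    (he : Tendsto ε atTop (𝓝 0))
    (h0 : ∀ N M, N ≤ M → L2 (fun z => sw ψ z * (v M - v N).1 z) (ε N)) :
    ∃ w : R, (∀ α c, (∀ N, L2 (fun z => sw ψ z * (dw α (v N)).1 z) c) →
      L2 (fun z => sw ψ z * (dw α w).1 z) c) ∧
      ∀ N, L2 (fun z => sw ψ z * (w - v N).1 z) (ε N) := by
  choose e' he' H using cau h hy hK he h0
  have ex : ∀ n : ℕ, ∀ᶠ N in atTop, ∀ α ∈ {α : List (Fin 3) | α.length ≤ n},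
      e' α N ≤ (1 / 2) ^ n := fun n =>
    (eventually_all_finite (List.finite_length_le (Fin 3) n)).2 fun α _ =>
      (he' α).eventually (ge_mem_nhds (by positivity))
  obtain ⟨φ, hφ, Hφ⟩ := extraction_forall_of_eventually ex
  have hc : ∀ k, ∃ c : ℕ → ℝ, Summable c ∧
      ∀ n, Nw (sw ψ) k (v (φ (n + 1)) - v (φ n)).1 (c n) := fun k => by
    obtain ⟨K, K0, HK⟩ := unif (Φ := fun α K => ∀ N, L2 (fun z => sw ψ z * (dw α (v N)).1 z) K)
      (fun _ _ _ H hab N => l2_le (H N) hab) hK k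
    refine ⟨fun n => ((K + K) * 2 ^ k + 1) * (1 / 2) ^ n, summable_geometric_two.mul_left _,
      fun n => ⟨sm _, fun α hα => ?_⟩⟩
    rw [← dw_val]
    have p0 : (0 : ℝ) ≤ (1 / 2) ^ n := by positivity
    by_cases hn : α.length ≤ n
    · refine l2_le (H α _ _ (hφ.monotone (Nat.le_succ n))) ((Hφ n α hn).trans ?_)
      exact le_mul_of_one_le_left p0 (le_add_of_nonneg_left (by positivity))
    · rw [dw_sub]
      refine l2_le (l2_sub' (HK α hα _) (HK α hα _)) ?_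
      have : (1 : ℝ) ≤ 2 ^ k * (1 / 2) ^ n := by
        rw [one_div, inv_pow, ← div_eq_mul_inv, one_le_div (by positivity)]
        exact pow_le_pow_right₀ one_le_two (by omega)
      nlinarith
  obtain ⟨g, hg, hsum, hL⟩ := hl _ (lw_sw h) _ hc
  have tg : TG g := tg_of_l2 hs h fun k => by
    obtain ⟨c, hc1, hc2⟩ := hc k
    exact ⟨∑' n, c n, hg, fun α hα => hL α c hc1 fun n => (hc2 n).2 α hα⟩
  have key : ∀ α z, Tendsto (fun n => (dw α (v (φ n))).1 z) atTop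
      (𝓝 ((dw α (v (φ 0) + ⟨g, tg⟩)).1 z)) := fun α z => by
    have k := (hsum α z).tendsto_sum_nat
    have e : ∀ n, ∑ i ∈ Finset.range n, pdl α (v (φ (i + 1)) - v (φ i)).1 z =
        (dw α (v (φ n))).1 z - (dw α (v (φ 0))).1 z := fun n => by
      rw [← Finset.sum_range_sub (fun n => (dw α (v (φ n))).1 z)]
      refine Finset.sum_congr rfl fun i _ => ?_
      rw [← dw_val, dw_sub]
      rfl
    simp only [e] at k
    have := k.add_const ((dw α (v (φ 0))).1 z)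
    simp only [sub_add_cancel] at this
    rw [dw_add]
    show Tendsto _ _ (𝓝 ((dw α (v (φ 0))).1 z + (dw α ⟨g, tg⟩).1 z))
    rw [dw_val α ⟨g, tg⟩, add_comm]
    exact this
  have cs := (lw_sw h).sm.continuous
  exact ⟨_, fun α c hc => l2_lim (cs.mul (cont _)) (.of_forall fun n => hc (φ n))
    fun z => (key α z).const_mul _, fun N => l2_lim
      (F := fun n z => sw ψ z * (v (φ n) - v N).1 z) (cs.mul (cont _))
      ((hφ.tendsto_atTop.eventually_ge_atTop N).mono fun n hn => h0 N _ hn)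
      fun z => ((key [] z).sub_const _).const_mul _⟩

end Vale.Agent.P354S
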