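import Vale.Agent.P354S.Est
import Vale.Agent.P354S.Four
import Vale.Agent.P354S.Lim

/-!
The Galerkin method and the abstract linear theorem.
-/

open scoped ContDiff
open MeasureTheory Set Filter Topology

namespace Vale.Agent.P354S

open Vale.Agent.P354H (X3 e pd pdl Sb pd_sm pdl_sm dif haar)
open Vale.Agent.P354K

/-- trigonometric polynomials -/
noncomputable def W0 (N : ℕ) : Submodule ℝ R :=
  Submodule.span ℝ (Set.range fun x : Fin N × Bool =>
    trg x.2 (TopologicalSpace.denseSeq X3 x.1))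

theorem W0_mono {N M : ℕ} (h : N ≤ M) : W0 N ≤ W0 M :=
  Submodule.span_mono (by rintro _ ⟨x, rfl⟩; exact ⟨(x.1.castLE h, x.2), rfl⟩)

theorem W0_d (N : ℕ) (a : Fin 3) {u : R} (hu : u ∈ W0 N) : d a u ∈ W0 N := by
  refine (Submodule.span_le (p := (W0 N).comap (d a))).2 ?_ hu
  rintro _ ⟨x, rfl⟩
  obtain ⟨c, hc⟩ := d_trg a x.2 (TopologicalSpace.denseSeq X3 x.1)
  show d a _ ∈ W0 N
  rw [hc]
  exact Submodule.smul_mem _ _ (Submodule.subset_span ⟨(x.1, !x.2), rfl⟩)

noncomputable def WN (κ : Type) (N : ℕ) : Submodule ℝ (κ → R) :=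
  Submodule.pi Set.univ fun _ => W0 N

theorem qq_zero {ψ : X3 → ℝ} (h : Wt ψ) {g : R} (hg : qq ψ g ≤ 0) : g = 0 := by
  have := haar
  have k := l2_le (l2_ps h g) hg
  have k1 : ∫ z, (ψ z * g.1 z) ^ 2 = 0 :=
    le_antisymm (by simpa using k.2.2.2) (integral_nonneg fun _ => sq_nonneg _)
  have k2 := (integral_eq_zero_iff_of_nonneg (fun _ => sq_nonneg _) k.2.1).1 k1
  have k3 := ((k.1.pow 2).ae_eq_iff_eq volume continuous_const).1 k2
  refine Subtype.ext (funext fun z => ?_)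
  exact (mul_eq_zero.1 (pow_eq_zero_iff two_ne_zero |>.1 (congrFun k3 z))).resolve_left
    (h.lw.pos z).ne'

variable {P ι κ : Type} [Fintype ι] [Fintype κ] {S : Cf P ι κ} {ψ : X3 → ℝ} {E : Fin 4 → R}
  {C1 : ℝ}

omit [Fintype ι] in
theorem dec_vv (h : Wt ψ) (r : P) (U : κ → R) (i : ι) : Dec (vv S h r U i) := (fs_ps h _).dec h

theorem aa_symm (h : Wt ψ) (r : P) (U V : κ → R) : aa S h E r U V = aa S h E r V U := by
  simp only [aa, vv, mul_right_comm (ps h * ps h) (S.A r U _), mul_comm (I (E _ * U _))]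

theorem aa_add (h : Wt ψ) (hE : ∀ s, Dec (E s)) (r : P) (U V V' : κ → R) :
    aa S h E r U (V + V') = aa S h E r U V + aa S h E r U V' := by
  have k1 : ∀ i, I (vv S h r U i * S.A r (V + V') i) =
      I (vv S h r U i * S.A r V i) + I (vv S h r U i * S.A r V' i) := fun i => by
    rw [S.A_add, mul_add, I_add ((dec_vv h r U i).mul' _) ((dec_vv h r U i).mul' _)]
  have k2 : ∀ k s, I (E s * (V + V') k) = I (E s * V k) + I (E s * V' k) := fun k s => by
    rw [Pi.add_apply, mul_add, I_add ((hE s).mul' _) ((hE s).mul' _)]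
  simp only [aa, k1, k2, mul_add, Finset.sum_add_distrib]
  ring

theorem aa_smul (h : Wt ψ) (r : P) (c : ℝ) (U V : κ → R) :
    aa S h E r U (c • V) = c • aa S h E r U V := by
  simp only [aa, S.A_smul, Pi.smul_apply, mul_smul_comm, I_smul, smul_eq_mul, mul_add,
    Finset.mul_sum, mul_left_comm c]

variable (S E) in
/-- the form -/
noncomputable def Bf (h : Wt ψ) (hE : ∀ s, Dec (E s)) (r : P) : (κ → R) →ₗ[ℝ] (κ → R) →ₗ[ℝ] ℝ :=
  LinearMap.mk₂ ℝ (aa S h E r)
    (fun U U' V => by rw [aa_symm, aa_add h hE, aa_symm h r V, aa_symm h r V])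
    (fun c U V => by rw [aa_symm, aa_smul, aa_symm h r V]) (aa_add h hE r) (aa_smul h r)

theorem Co.gal (c : Co S E ψ C1) (h : Wt ψ) (r : P) {f : κ → R} (hf : ∀ k, Dec (f k)) (N : ℕ) :
    ∃ U, Gal S h E r f (WN κ N) U := by
  have : FiniteDimensional ℝ (WN κ N) := Module.Finite.iff_fg.2
    (Submodule.fg_pi fun _ => Submodule.fg_span (Set.finite_range _))
  let F : (κ → R) →ₗ[ℝ] ℝ :=
    { toFun := FF f
      map_add' := fun V V' => by
        rw [FF, FF, FF, ← Finset.sum_add_distrib]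
        refine Finset.sum_congr rfl fun k _ => ?_
        rw [Pi.add_apply, mul_add, I_add ((hf k).mul' _) ((hf k).mul' _)]
      map_smul' := fun a V => by
        simp only [FF, Pi.smul_apply, mul_smul_comm, I_smul, smul_eq_mul, Finset.mul_sum,
          RingHom.id_apply] }
  obtain ⟨U, hU, H⟩ := galerkin (Bf S E h (fun s => (c.fs s).dec h) r) (fun U hU => by
    have k := c.st_le h r U
    rw [show aa S h E r U U = 0 from hU, Real.sqrt_zero, mul_zero] at k
    exact funext fun k' => qq_zero h ((le_st ψ U k' (β := []) (by simp)).trans k)) F (WN κ N)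
  exact ⟨U, fun a V hV k hk => W0_d N a (hV k hk), hU, H⟩

theorem Co.cauchy (c : Co S E ψ C1) (h : Wt ψ) {r : P} {f : κ → R} (hf : ∀ k, Fs ψ (f k))
    {U : ℕ → κ → R} (g : ∀ N, Gal S h E r f (WN κ N) (U N)) :
    ∃ ε : ℕ → ℝ, Tendsto ε atTop (𝓝 0) ∧
      ∀ N M, N ≤ M → √(aa S h E r (U M - U N) (U M - U N)) ≤ ε N := by
  have k1 : ∀ N M, N ≤ M → aa S h E r (U M - U N) (U M - U N) =
      aa S h E r (U M) (U M) - aa S h E r (U N) (U N) := fun N M hNM => by
    have e1 : aa S h E r (U M) (U N) = aa S h E r (U N) (U N) := by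
      rw [(g M).eq _ fun k hk => W0_mono hNM ((g N).mem k hk), (g N).eq _ (g N).mem]
    have e2 := aa_symm (S := S) (E := E) h r (U N) (U M)
    show Bf S E h (fun s => (c.fs s).dec h) r (U M - U N) (U M - U N) = _
    simp only [map_sub, LinearMap.sub_apply, Bf, LinearMap.mk₂_apply]
    linarith
  have k2 : Monotone fun N => aa S h E r (U N) (U N) := fun N M hNM => by
    have := aa_nonneg (S := S) (E := E) h r (U M - U N)
    rw [k1 N M hNM] at this
    exact sub_nonneg.1 this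
  obtain ⟨b, hb, Hb⟩ := unif_fin (Φ := fun k b => L2 (fun z => sw ψ z * (f k).1 z) b)
    (fun _ _ _ => l2_le) fun k => hf k []
  have k3 : BddAbove (Set.range fun N => aa S h E r (U N) (U N)) := by
    refine ⟨(C1 * (Fintype.card ι + Fintype.card κ * 4) * (Fintype.card κ * b)) ^ 2, ?_⟩
    rintro _ ⟨N, rfl⟩
    exact (Real.sqrt_le_iff.1 (c.e0 (g N) (by positivity) fun V =>
      FF_le h Hb fun k => le_st ψ V k (β := []) (by simp))).2
  refine ⟨fun N => √((⨆ N, aa S h E r (U N) (U N)) - aa S h E r (U N) (U N)), ?_,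
    fun N M hNM => Real.sqrt_le_sqrt ?_⟩
  · simpa using ((tendsto_atTop_ciSup k2 k3).const_sub (⨆ N, aa S h E r (U N) (U N))).sqrt
  · rw [k1 N M hNM]
    exact sub_le_sub_right (le_ciSup k3 M) _

omit [Fintype ι] in
theorem zero_of_test {G : κ → R} (hG : ∀ k, Dec (G k))
    (H : ∀ N, ∀ V ∈ WN κ N, FF G V = 0) (k : κ) : G k = 0 := by
  classical
  have key : ∀ b n, I (G k * trg b (TopologicalSpace.denseSeq X3 n)) = 0 := fun b n => by
    have := H (n + 1) (Pi.single k (trg b (TopologicalSpace.denseSeq X3 n))) fun k' _ => by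
      by_cases hk : k' = k
      · rw [hk, Pi.single_eq_same]
        exact Submodule.subset_span ⟨(Fin.last n, b), rfl⟩
      · rw [Pi.single_eq_of_ne hk]
        exact Submodule.zero_mem _
    rwa [FF, Finset.sum_eq_single k (fun k' _ hk => by
      rw [Pi.single_eq_of_ne hk, mul_zero, I_zero]) (by simp), Pi.single_eq_same] at this
  refine Subtype.ext (funext fun z => four_uniq (cont _) (hG k).int1
    (TopologicalSpace.denseRange_denseSeq X3) ?_ ?_ z)
  · rintro _ ⟨n, rfl⟩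
    exact key true n
  · rintro _ ⟨n, rfl⟩
    exact key false n

theorem Co.solve (c : Co S E ψ C1) (h : Wt ψ) (hs : SOBW) (hl : LIM) :
    ∃ (C0 : ℝ) (C : ℕ → ℝ), 0 ≤ C0 ∧ (∀ n, 0 ≤ C n) ∧ ∀ r f, (∀ k, Fs ψ (f k)) →
      ∃ (v : ι → R) (θ : κ → Fin 4 → ℝ), (∀ k, S.L r v k = f k - ∑ s, θ k s • E s) ∧
        Bnd ψ C0 C f v ∧ ∀ M, 0 ≤ M → (∀ V, |FF f V| ≤ M * st ψ V) →
          ∀ k s, |θ k s| ≤ C1 * (Fintype.card ι + Fintype.card κ * 4) * M := by
  obtain ⟨C0, C, h0, hC, HB⟩ := c.bnd h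
  refine ⟨C0, C, h0, hC, fun r f hf => ?_⟩
  have hE : ∀ s, Dec (E s) := fun s => (c.fs s).dec h
  choose U g using c.gal h r fun k => (hf k).dec h
  obtain ⟨ε, he, He⟩ := c.cauchy h hf g
  have bd := fun N => HB r f _ _ (g N) hf
  have hb : ∀ n, ∃ b, 0 ≤ b ∧ ∀ α : List (Fin 3), α.length ≤ n →
      ∀ k, L2 (fun z => sw ψ z * (dw α (f k)).1 z) b :=
    unif (Φ := fun α b => ∀ k, L2 (fun z => sw ψ z * (dw α (f k)).1 z) b)
      (fun _ _ _ H hab k => l2_le (H k) hab) fun α =>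
      (unif_fin (Φ := fun k b => L2 (fun z => sw ψ z * (dw α (f k)).1 z) b)
        (fun _ _ _ => l2_le) fun k => hf k α).imp fun _ H => H.2
  choose v hv1 hv2 using fun i => lim_seq hs hl h (v := fun N => vv S h r (U N) i)
    (fun N => ⟨_, rfl⟩) (fun α => by
      obtain ⟨b, b0, Hb⟩ := hb α.length
      exact ⟨_, fun N => (bd N).all _ b b0 (fun k β hβ => Hb β hβ k) i α (by omega)⟩) he
    fun N M hNM => by
      have e : vv S h r (U M) i - vv S h r (U N) i = ps h * ps h * S.A r (U M - U N) i := by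
        rw [S.A_sub, mul_sub]; rfl
      rw [e, sw_ps]
      exact l2_le (l2_ps h _) ((q_le_aa h r _ i).trans (He N M hNM))
  have bv : Bnd ψ C0 C f v :=
    ⟨fun n b b0 Hb i α hα => hv1 i α _ fun N => (bd N).all n b b0 Hb i α hα,
      fun n a b a0 b0 Ha Hb i α hα => hv1 i α _ fun N => (bd N).top n a b a0 b0 Ha Hb i α hα⟩
  have fv : ∀ i, Fs ψ (v i) := fun i α => by
    obtain ⟨b, b0, Hb⟩ := hb α.length
    exact ⟨_, bv.all _ b b0 (fun k β hβ => Hb β hβ k) i α (by omega)⟩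
  choose θ hθ using fun k s => cauchySeq_tendsto_of_complete
    (cauchySeq_of_le_tendsto_0' (s := fun N => I (E s * U N k)) ε (fun N M hNM => by
      rw [dist_comm, Real.dist_eq, ← I_sub ((hE s).mul' _) ((hE s).mul' _), ← mul_sub]
      exact (l_le_aa h r (U M - U N) k s).trans (He N M hNM)) he)
  refine ⟨v, θ, fun k => ?_, bv, fun M hM HM k s => le_of_tendsto' (hθ k s).abs fun N =>
    (l_le_aa h r (U N) k s).trans (c.e0 (g N) hM HM)⟩
  have dL := S.dec_L r fun i => (fv i).dec h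
  have dE : ∀ k, Dec (∑ s, θ k s • E s) := fun k => Dec.sum _ fun s => (hE s).smul _
  have dF : ∀ k, Dec (f k - ∑ s, θ k s • E s) := fun k => ((hf k).dec h).sub (dE k)
  refine sub_eq_zero.1 (zero_of_test (G := fun k => S.L r v k - (f k - ∑ s, θ k s • E s))
    (fun k => (dL k).sub (dF k)) (fun N V hV => ?_) k)
  have t1 : ∀ i, Tendsto (fun n => I (vv S h r (U n) i * S.A r V i)) atTop
      (𝓝 (I (v i * S.A r V i))) := fun i => by
    refine tendsto_iff_dist_tendsto_zero.2 (squeeze_zero (fun _ => dist_nonneg) (fun n => ?_)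
      (by simpa using he.mul_const (qq ψ (S.A r V i))))
    rw [dist_comm, Real.dist_eq, ← I_sub (((fv i).dec h).mul' _) ((dec_vv h r _ i).mul' _),
      ← sub_mul]
    exact (pair_le h (hv2 i n) _).2
  have t2 : Tendsto (fun n => aa S h E r (U n) V) atTop
      (𝓝 (∑ i, I (v i * S.A r V i) + ∑ k, ∑ s, θ k s * I (E s * V k))) :=
    (tendsto_finsetSum _ fun i _ => t1 i).add (tendsto_finsetSum _ fun k _ =>
      tendsto_finsetSum _ fun s _ => (hθ k s).mul_const _)
  have t3 : Tendsto (fun n => aa S h E r (U n) V) atTop (𝓝 (FF f V)) :=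
    tendsto_const_nhds.congr' ((eventually_ge_atTop N).mono fun n hn =>
      ((g n).eq V fun k hk => W0_mono hn (hV k hk)).symm)
  have t4 := tendsto_nhds_unique t2 t3
  rw [S.adj r fun i => (fv i).dec h] at t4
  have t5 : ∀ k, I ((S.L r v k - (f k - ∑ s, θ k s • E s)) * V k) =
      I (S.L r v k * V k) - (I (f k * V k) - ∑ s, θ k s * I (E s * V k)) := fun k => by
    rw [sub_mul, I_sub ((dL k).mul' _) ((dF k).mul' _), sub_mul,
      I_sub (((hf k).dec h).mul' _) ((dE k).mul' _), Finset.sum_mul,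
      I_sum _ fun s => ((hE s).smul _).mul' _]
    simp only [smul_mul_assoc, I_smul]
  simp only [FF, t5, Finset.sum_sub_distrib] at t4 ⊢
  linarith

theorem sol0 (hp : POIN) (hl : LIM) (hs : SOBW) : SOL0 := by
  intro P ι κ _ _ a2 a1 a0 B h2 h1 h0 hB z0 ρ hρ
  let S : Cf P ι κ := ⟨fun i k j l r => ⟨_, ub_tg (h2 i k j l) r⟩,
    fun i k j r => ⟨_, ub_tg (h1 i k j) r⟩, fun i k r => ⟨_, ub_tg (h0 i k) r⟩,
    fun i k j l => ub_bf (h2 i k j l), fun i k j => ub_bf (h1 i k j), fun i k => ub_bf (h0 i k)⟩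
  obtain ⟨ψ, b, C1, h, hb, p1, hco⟩ := coer S hp hB z0 hρ
  have sp := prof_supp Metric.isClosed_closedBall hb
  rcases isEmpty_or_nonempty κ with hκ | ⟨⟨k0⟩⟩
  · have z : ∀ α : List (Fin 3), L2 (fun z => sw ψ z * pdl α (fun _ => (0 : ℝ)) z) 0 := fun α => by
      rw [pdl_zero']; simpa using l2_zero
    exact ⟨ψ, fun s => (prof b s).1, 0, fun _ => 0, h, fun s => ⟨sm _, sp s⟩, le_rfl,
      fun _ => le_rfl, fun r f _ => ⟨fun _ _ => 0, fun _ _ => 0, fun k => hκ.elim k,
      fun n b _ i => ⟨contDiff_const, fun α _ => by simpa using z α⟩,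
      fun n a b _ _ i α _ => by simpa using z α, fun _ _ _ k => hκ.elim k⟩⟩
  have c : Co S (prof b) ψ C1 :=
    ⟨fun s => fs_of_supp h (isCompact_closedBall z0 ρ) (sp s), p1, hco⟩
  obtain ⟨C0, C, p0, pC, H⟩ := c.solve h hs hl
  obtain ⟨C2, hC2⟩ : ∃ C2 : ℝ, C2 = C1 * (Fintype.card ι + Fintype.card κ * 4) := ⟨_, rfl⟩
  have p2 : 0 ≤ C2 := by rw [hC2]; positivity
  refine ⟨ψ, fun s => (prof b s).1, C0 + C2, C, h, fun s => ⟨sm _, sp s⟩, by positivity, pC,
    fun r f hf => ?_⟩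
  let F : κ → R := fun k => ⟨f k, tg_of_l2 hs h (hf k)⟩
  have eF : ∀ α k, (dw α (F k)).1 = pdl α (f k) := fun α k => dw_val α (F k)
  obtain ⟨v, θ, e1, bv, e2⟩ := H r F fun k α => by
    rw [eF]
    exact (hf k α.length).imp fun _ H => H.2 α le_rfl
  refine ⟨fun i => (v i).1, θ, fun k z => ?_, fun n b hb i => ⟨sm _, fun α hα => ?_⟩,
    fun n a b ha hb i α hα => ?_, fun M hM HM k s => ?_⟩
  · have := congrArg (fun g : R => g.1 z) (e1 k)
    simp only [S.L_val, AddSubgroupClass.coe_sub, AddSubmonoidClass.coe_finsetSum, Pi.sub_apply,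
      Finset.sum_apply] at this
    exact this
  · rw [← dw_val]
    exact bv.all n b ((hb k0).2 [] (Nat.zero_le _)).2.2.1
      (fun k β hβ => by rw [eF]; exact (hb k).2 β hβ) i α hα
  · rw [← dw_val]
    have a0 := (ha k0 (List.replicate (n + 1) 0) (by simp)).2.2.1
    refine l2_le (bv.top n a b a0 ((hb k0).2 [] (Nat.zero_le _)).2.2.1
      (fun k β hβ => by rw [eF]; exact ha k β hβ)
      (fun k β hβ => by rw [eF]; exact (hb k).2 β hβ) i α hα) ?_
    nlinarith [mul_nonneg p2 a0]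
  · have := e2 M hM (fun V => HM (fun k => (V k).1) _ fun k => ⟨sm _, fun β hβ => by
      rw [← dhw_val]; exact l2_le (l2_ps h _) (le_st ψ V k hβ)⟩) k s
    rw [← hC2] at this
    nlinarith [mul_nonneg p0 hM]

end Vale.Agent.P354S
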