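import Mathlib

/-!
Abstract lemmas: words of operators, commutators, finite dimensional solvability.
-/

open Set Filter Topology

namespace Vale.Agent.P354S

/-- words of maps; the head of the list is applied first -/
def wd {M : Type} (Z : Fin 3 → M → M) : List (Fin 3) → M → M
  | [], u => u
  | a :: w, u => wd Z w (Z a u)

theorem wd_append {M : Type} (Z : Fin 3 → M → M) (w w' : List (Fin 3)) (u : M) :
    wd Z (w ++ w') u = wd Z w' (wd Z w u) := by
  induction w generalizing u with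
  | nil => rfl
  | cons a w ih => exact ih _

/-- the sum of p over all words of length < n -/
def nl {M : Type} (Z : Fin 3 → M → M) (p : M → ℝ) : ℕ → M → ℝ
  | 0, _ => 0
  | n + 1, u => p u + ∑ a, nl Z p n (Z a u)

section
variable {M : Type} {Z : Fin 3 → M → M} {p : M → ℝ}

theorem nl_nonneg (hp : ∀ u, 0 ≤ p u) (n : ℕ) (u : M) : 0 ≤ nl Z p n u := by
  induction n generalizing u with
  | zero => exact le_rfl
  | succ n ih => exact add_nonneg (hp u) (Finset.sum_nonneg fun a _ => ih _)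

theorem nl_Z (hp : ∀ u, 0 ≤ p u) (n : ℕ) (a : Fin 3) (u : M) :
    nl Z p n (Z a u) ≤ nl Z p (n + 1) u := by
  have h := Finset.single_le_sum (f := fun a => nl Z p n (Z a u))
    (fun a _ => nl_nonneg hp n _) (Finset.mem_univ a)
  have := hp u
  simp only [nl]
  linarith

theorem nl_succ (hp : ∀ u, 0 ≤ p u) (n : ℕ) (u : M) : nl Z p n u ≤ nl Z p (n + 1) u := by
  induction n generalizing u with
  | zero => exact nl_nonneg hp 1 u
  | succ n ih =>
    have h : ∑ a, nl Z p n (Z a u) ≤ ∑ a, nl Z p (n + 1) (Z a u) :=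
      Finset.sum_le_sum fun a _ => ih _
    show p u + _ ≤ p u + _
    linarith

theorem nl_mono (hp : ∀ u, 0 ≤ p u) {n m : ℕ} (h : n ≤ m) (u : M) : nl Z p n u ≤ nl Z p m u := by
  induction h with
  | refl => exact le_rfl
  | step _ ih => exact ih.trans (nl_succ hp _ u)

theorem le_nl (hp : ∀ u, 0 ≤ p u) (w : List (Fin 3)) (u : M) :
    p (wd Z w u) ≤ nl Z p (w.length + 1) u := by
  induction w generalizing u with
  | nil => simp [wd, nl]
  | cons a w ih => exact (ih _).trans (nl_Z hp _ a u)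

theorem le_nl' (hp : ∀ u, 0 ≤ p u) {w : List (Fin 3)} {n : ℕ} (h : w.length < n) (u : M) :
    p (wd Z w u) ≤ nl Z p n u := (le_nl hp w u).trans (nl_mono hp h u)

theorem nl_le {c : ℝ} (hc : 0 ≤ c) (n : ℕ) (u : M)
    (h : ∀ w : List (Fin 3), w.length < n → p (wd Z w u) ≤ c) : nl Z p n u ≤ 4 ^ n * c := by
  induction n generalizing u with
  | zero => simpa [nl] using hc
  | succ n ih =>
    have h1 : p u ≤ c := h [] (Nat.succ_pos n)
    have h2 : ∑ a, nl Z p n (Z a u) ≤ ∑ _a : Fin 3, 4 ^ n * c :=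
      Finset.sum_le_sum fun a _ => ih _ fun w hw => h (a :: w) (Nat.succ_lt_succ hw)
    have h3 : (1 : ℝ) ≤ 4 ^ n := one_le_pow₀ (by norm_num)
    simp only [Finset.sum_const, Finset.card_univ, Fintype.card_fin, nsmul_eq_mul] at h2
    simp only [nl, pow_succ]
    push_cast at h2
    nlinarith

end

/-- Commutators of words with a class of maps that is closed under commutators. -/
theorem comm {M M' : Type} [AddCommGroup M'] (Z : Fin 3 → M → M) (Z' : Fin 3 → M' →+ M')
    (p : M → ℝ) (hp : ∀ u, 0 ≤ p u) (Q : M' → ℝ → Prop) (Q0 : Q 0 0)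
    (Qadd : ∀ x y a b, Q x a → Q y b → Q (x + y) (a + b)) (Qle : ∀ x a b, Q x a → a ≤ b → Q x b)
    (Cl : (M → M') → Prop)
    (had : ∀ A, Cl A → ∀ a, ∃ A', Cl A' ∧ ∀ u, Z' a (A u) = A (Z a u) + A' u)
    (hbd : ∀ A, Cl A → ∃ C, 0 ≤ C ∧ ∀ u, Q (A u) (C * p u)) (w : List (Fin 3)) :
    ∀ A, Cl A → ∃ C, 0 ≤ C ∧ ∀ u,
      Q (wd (fun a => Z' a) w (A u) - A (wd Z w u)) (C * nl Z p w.length u) := by
  have hadd : ∀ (w : List (Fin 3)) x y, wd (fun a => Z' a) w (x + y) =
      wd (fun a => Z' a) w x + wd (fun a => Z' a) w y := by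
    intro w
    induction w with
    | nil => intro x y; rfl
    | cons a w ih => intro x y; simp only [wd, map_add, ih]
  induction w with
  | nil => exact fun A _ => ⟨0, le_rfl, fun u => by simpa [wd] using Q0⟩
  | cons a w ih =>
    intro A hA
    obtain ⟨A', hA', he⟩ := had A hA a
    obtain ⟨C1, h1, H1⟩ := ih A hA
    obtain ⟨C2, h2, H2⟩ := ih A' hA'
    obtain ⟨C3, h3, H3⟩ := hbd A' hA'
    refine ⟨C1 + C2 + C3, by positivity, fun u => ?_⟩
    have e : wd (fun a => Z' a) (a :: w) (A u) - A (wd Z (a :: w) u) =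
        (wd (fun a => Z' a) w (A (Z a u)) - A (wd Z w (Z a u))) +
          (wd (fun a => Z' a) w (A' u) - A' (wd Z w u)) + A' (wd Z w u) := by
      simp only [wd, he, hadd]; abel
    rw [e]
    refine Qle _ _ _ (Qadd _ _ _ _ (Qadd _ _ _ _ (H1 _) (H2 u)) (H3 _)) ?_
    have k1 := nl_Z (Z := Z) hp w.length a u
    have k2 := nl_succ (Z := Z) hp w.length u
    have k3 := le_nl (Z := Z) hp w u
    simp only [List.length_cons]
    nlinarith

/-- Constants can be chosen uniformly for words of bounded length. -/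
theorem unif {Φ : List (Fin 3) → ℝ → Prop} (hm : ∀ w a b, Φ w a → a ≤ b → Φ w b)
    (h : ∀ w, ∃ C, Φ w C) (n : ℕ) : ∃ C, 0 ≤ C ∧ ∀ w : List (Fin 3), w.length ≤ n → Φ w C := by
  choose C hC using h
  obtain ⟨B, hB⟩ := ((List.finite_length_le (Fin 3) n).image C).bddAbove
  exact ⟨max B 0, le_max_right _ _, fun w hw =>
    hm w _ _ (hC w) ((hB ⟨w, hw, rfl⟩).trans (le_max_left _ _))⟩

theorem unif_fin {ι : Type} [Finite ι] {Φ : ι → ℝ → Prop} (hm : ∀ w a b, Φ w a → a ≤ b → Φ w b)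
    (h : ∀ w, ∃ C, Φ w C) : ∃ C, 0 ≤ C ∧ ∀ w, Φ w C := by
  choose C hC using h
  obtain ⟨B, hB⟩ := (Set.finite_range C).bddAbove
  exact ⟨max B 0, le_max_right _ _, fun w =>
    hm w _ _ (hC w) ((hB ⟨w, rfl⟩).trans (le_max_left _ _))⟩

/-- Definite forms on finite dimensional subspaces represent all linear forms. -/
theorem galerkin {M : Type} [AddCommGroup M] [Module ℝ M] (B : M →ₗ[ℝ] M →ₗ[ℝ] ℝ)
    (hB : ∀ u, B u u = 0 → u = 0) (F : M →ₗ[ℝ] ℝ) (W : Submodule ℝ M) [FiniteDimensional ℝ W] :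
    ∃ u ∈ W, ∀ v ∈ W, B u v = F v := by
  let T : W →ₗ[ℝ] Module.Dual ℝ W := (B.domRestrict₁₂ W W)
  have hi : Function.Injective T := by
    rw [injective_iff_map_eq_zero]
    intro u hu
    have : T u u = 0 := by rw [hu]; rfl
    exact Subtype.ext (hB u.1 this)
  have hs := (LinearMap.injective_iff_surjective_of_finrank_eq_finrank
    (Subspace.dual_finrank_eq (K := ℝ) (V := W)).symm).1 hi
  obtain ⟨u, hu⟩ := hs (F.domRestrict W)
  exact ⟨u.1, u.2, fun v hv => congrArg (fun L : Module.Dual ℝ W => L ⟨v, hv⟩) hu⟩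

theorem quad_le {x a b c : ℝ} (ha : 0 ≤ a) (hb : 0 ≤ b) (hc : 0 ≤ c)
    (h : x ^ 2 ≤ a * (c * x + b)) : x ≤ (c + 1) * a + b := by
  by_contra hn
  push Not at hn
  have h1 : 0 ≤ c * a := mul_nonneg hc ha
  have h2 : a + b < x - c * a := by linarith
  have h3 : 0 < x := by linarith
  have h4 : (a + b) * (a + b) ≤ x * (x - c * a) :=
    mul_le_mul (by linarith) h2.le (by linarith) h3.le
  nlinarith [mul_nonneg ha hb, sq_nonneg a, sq_nonneg b, mul_pos h3 (by linarith : 0 < x - c * a)]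

end Vale.Agent.P354S
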