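import Vale.Agent.P354S.Ops

/-!
The operator, its adjoint and the coercivity estimate.
-/

open scoped ContDiff
open MeasureTheory Set Filter Topology

namespace Vale.Agent.P354S

open Vale.Agent.P354H (X3 e pd pdl Sb pd_sm pdl_sm dif haar)
open Vale.Agent.P354K

/-- coefficients -/
structure Cf (P ι κ : Type) where
  a2 : ι → κ → Fin 3 → Fin 3 → P → R
  a1 : ι → κ → Fin 3 → P → R
  a0 : ι → κ → P → R
  b2 : ∀ i k j l, BF (a2 i k j l)
  b1 : ∀ i k j, BF (a1 i k j)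
  b0 : ∀ i k, BF (a0 i k)

variable {P ι κ : Type} [Fintype ι] [Fintype κ] (S : Cf P ι κ)

/-- the adjoint operator -/
noncomputable def Cf.A (r : P) (U : κ → R) (i : ι) : R :=
  ∑ k, (∑ j, ∑ l, S.a2 i k j l r * dh j (dh l (U k)) + ∑ j, S.a1 i k j r * dh j (U k) +
    S.a0 i k r * U k)

/-- the operator -/
noncomputable def Cf.L (r : P) (v : ι → R) (k : κ) : R :=
  ∑ i, (∑ j, ∑ l, gg l * d l (gg j * d j (S.a2 i k j l r * v i)) -
    ∑ j, gg j * d j (S.a1 i k j r * v i) + S.a0 i k r * v i)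

omit [Fintype ι] in
theorem Cf.opr (m : R) (i : ι) : Opr m fun u : P × (κ → R) => m * S.A u.1 u.2 i :=
  (Opr.sum Finset.univ fun k => ((Opr.sum Finset.univ fun j => Opr.sum Finset.univ fun l =>
    Opr.base _ (S.b2 i k j l) k [l, j] (by simp)).add (Opr.sum Finset.univ fun j =>
    Opr.base _ (S.b1 i k j) k [j] (by simp))).add (Opr.base _ (S.b0 i k) k [] (by simp))).congr
    fun u => by simp only [Cf.A, Finset.mul_sum, mul_add, dhw, wd]

omit [Fintype ι] in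
theorem Cf.opr1 (i : ι) : Opr 1 fun u : P × (κ → R) => S.A u.1 u.2 i :=
  (S.opr 1 i).congr fun _ => (one_mul _).symm

omit [Fintype ι] in
theorem Cf.A_add (r : P) (U V : κ → R) (i : ι) : S.A r (U + V) i = S.A r U i + S.A r V i := by
  simp only [Cf.A, Pi.add_apply, map_add, mul_add, Finset.sum_add_distrib]
  ring

omit [Fintype ι] in
theorem Cf.A_smul (r : P) (c : ℝ) (U : κ → R) (i : ι) : S.A r (c • U) i = c • S.A r U i := by
  simp only [Cf.A, Pi.smul_apply, map_smul, mul_smul_comm, Finset.smul_sum, smul_add]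

omit [Fintype ι] in
theorem Cf.A_sub (r : P) (U V : κ → R) (i : ι) : S.A r (U - V) i = S.A r U i - S.A r V i := by
  have := S.A_add r (U - V) V i
  rw [sub_add_cancel] at this
  rw [this]; ring

omit [Fintype κ] in
theorem Cf.dec_L (r : P) {v : ι → R} (hv : ∀ i, Dec (v i)) (k : κ) : Dec (S.L r v k) :=
  Dec.sum _ fun i => ((Dec.sum _ fun j => Dec.sum _ fun l =>
    (((((hv i).mul _).d j).mul _).d l).mul _).sub (Dec.sum _ fun j =>
      (((hv i).mul _).d j).mul _)).add ((hv i).mul _)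

theorem Cf.adj (r : P) {v : ι → R} (hv : ∀ i, Dec (v i)) (U : κ → R) :
    ∑ i, I (v i * S.A r U i) = ∑ k, I (S.L r v k * U k) := by
  have h2 : ∀ i k j l, I (v i * (S.a2 i k j l r * dh j (dh l (U k)))) =
      I (gg l * d l (gg j * d j (S.a2 i k j l r * v i)) * U k) := fun i k j l => by
    have k1 := ibp_dh ((hv i).mul (S.a2 i k j l r)) (dh l (U k)) j
    have k2 := ibp_dh ((((hv i).mul (S.a2 i k j l r)).d j).mul (gg j)) (U k) l
    rw [show v i * (S.a2 i k j l r * dh j (dh l (U k))) =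
      S.a2 i k j l r * v i * dh j (dh l (U k)) by ring, k1, k2, neg_neg]
  have h1 : ∀ i k j, I (v i * (S.a1 i k j r * dh j (U k))) =
      -I (gg j * d j (S.a1 i k j r * v i) * U k) := fun i k j => by
    rw [show v i * (S.a1 i k j r * dh j (U k)) = S.a1 i k j r * v i * dh j (U k) by ring,
      ibp_dh ((hv i).mul (S.a1 i k j r)) (U k) j]
  have hL : ∀ i, I (v i * S.A r U i) = ∑ k, (∑ j, ∑ l,
      I (gg l * d l (gg j * d j (S.a2 i k j l r * v i)) * U k) -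
      ∑ j, I (gg j * d j (S.a1 i k j r * v i) * U k) + I (S.a0 i k r * v i * U k)) := fun i => by
    rw [Cf.A, Finset.mul_sum, I_sum _ fun k => (hv i).mul' _]
    refine Finset.sum_congr rfl fun k _ => ?_
    rw [mul_add, mul_add, I_add (((hv i).mul' _).add ((hv i).mul' _)) ((hv i).mul' _),
      I_add ((hv i).mul' _) ((hv i).mul' _), Finset.mul_sum, I_sum _ fun j => (hv i).mul' _,
      Finset.mul_sum, I_sum _ fun j => (hv i).mul' _]
    simp only [h1, Finset.sum_neg_distrib]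
    rw [show v i * (S.a0 i k r * U k) = S.a0 i k r * v i * U k by ring, ← sub_eq_add_neg]
    congr 2
    refine Finset.sum_congr rfl fun j _ => ?_
    rw [Finset.mul_sum, I_sum _ fun l => (hv i).mul' _]
    simp only [h2]
  simp only [hL]
  rw [Finset.sum_comm]
  refine Finset.sum_congr rfl fun k _ => ?_
  have d2 : ∀ i j l, Dec (gg l * d l (gg j * d j (S.a2 i k j l r * v i))) := fun i j l =>
    (((((hv i).mul _).d j).mul _).d l).mul _
  have d1 : ∀ i j, Dec (gg j * d j (S.a1 i k j r * v i)) := fun i j => (((hv i).mul _).d j).mul _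
  have s2 : ∀ i, Dec (∑ j, ∑ l, gg l * d l (gg j * d j (S.a2 i k j l r * v i))) := fun i =>
    Dec.sum _ fun j => Dec.sum _ fun l => d2 i j l
  have s1 : ∀ i, Dec (∑ j, gg j * d j (S.a1 i k j r * v i)) := fun i => Dec.sum _ fun j => d1 i j
  rw [Cf.L, Finset.sum_mul, I_sum _ fun i => (((s2 i).sub (s1 i)).add ((hv i).mul _)).mul' _]
  refine Finset.sum_congr rfl fun i _ => ?_
  rw [add_mul, sub_mul, I_add (((s2 i).mul' _).sub ((s1 i).mul' _)) (((hv i).mul _).mul' _),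
    I_sub ((s2 i).mul' _) ((s1 i).mul' _), Finset.sum_mul,
    I_sum _ fun j => (Dec.sum _ fun l => d2 i j l).mul' _, Finset.sum_mul,
    I_sum _ fun j => (d1 i j).mul' _]
  congr 2
  refine Finset.sum_congr rfl fun j _ => ?_
  rw [Finset.sum_mul, I_sum _ fun l => (d2 i j l).mul' _]

omit [Fintype κ] in
theorem Cf.L_val (r : P) (v : ι → R) (k : κ) (z : X3) : (S.L r v k).1 z =
    Lop (fun i k j l => (S.a2 i k j l r).1) (fun i k j => (S.a1 i k j r).1)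
      (fun i k => (S.a0 i k r).1) (fun i => (v i).1) k z := by
  have hD : ∀ j (u : R), (gg j * d j u).1 = D j u.1 := fun j u => by
    funext z
    show (gg j).1 z * pd j u.1 z = _
    rw [gg_val]; rfl
  simp only [Cf.L, Lop, AddSubmonoidClass.coe_finsetSum, Finset.sum_apply, Subalgebra.coe_add,
    AddSubgroupClass.coe_sub, Pi.add_apply, Pi.sub_apply, hD]
  rfl

/-- the profiles -/
noncomputable def prof (b : R) : Fin 4 → R := Fin.cons b fun j => -(gg j * d j b)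

theorem fs_of_supp {ψ : X3 → ℝ} (h : Wt ψ) {K : Set X3} (hK : IsCompact K) {b : R}
    (hb : ∀ z, z ∉ K → b.1 z = 0) : Fs ψ b := fun α => by
  have hc : Continuous fun z => sw ψ z * (dw α b).1 z := (lw_sw h).sm.continuous.mul (cont _)
  have hs : HasCompactSupport fun z => (sw ψ z * (dw α b).1 z) ^ 2 :=
    HasCompactSupport.intro hK fun z hz => by
      rw [dw_val, pdl_supp α hK.isClosed hb z hz]; simp
  have := haar
  exact ⟨_, hc, (hc.pow 2).integrable_of_hasCompactSupport hs, qq_nonneg _ (dw α b),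
    (qq_sq _ _).ge⟩

theorem prof_supp {K : Set X3} (hK : IsClosed K) {b : R} (hb : ∀ z, z ∉ K → b.1 z = 0) (s : Fin 4)
    (z : X3) (hz : z ∉ K) : (prof b s).1 z = 0 := by
  refine Fin.cases (hb z hz) (fun j => ?_) s
  show -((gg j).1 z * pd j b.1 z) = 0
  rw [pd_supp j hK hb z hz]; simp

theorem st_eq (ψ : X3 → ℝ) (U : κ → R) : st ψ U = ∑ k, qq ψ (U k) +
    ∑ k, ∑ j, qq ψ (dh j (U k)) + ∑ k, ∑ j, ∑ l, qq ψ (dh l (dh j (U k))) := by
  simp only [st, nl, Finset.sum_add_distrib, Finset.sum_const_zero, add_zero, add_assoc]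

theorem second {B : ℝ}
    (hB : ∀ r z (H : κ → Fin 3 → Fin 3 → ℝ) (s : ℝ), (∀ k j l, H k j l = H k l j) →
      (∀ i, |∑ k, ∑ j, ∑ l, (S.a2 i k j l r).1 z * H k j l| ≤ s) → ∀ k j l, |H k j l| ≤ B * s) :
    ∃ c, 0 ≤ c ∧ ∀ ψ, Wt ψ → ∀ r (U : κ → R) k j l, qq ψ (dh l (dh j (U k))) ≤
      |B| * (∑ i, qq ψ (S.A r U i) + c * (∑ k, qq ψ (U k) + ∑ k, ∑ j, qq ψ (dh j (U k)))) := by
  obtain ⟨c1, hc1, H1⟩ := unif_fin (Φ := fun (x : ι × κ × Fin 3) C =>
      ∀ r z, |(S.a1 x.1 x.2.1 x.2.2 r).1 z| ≤ C) (fun x a b H hab r z => (H r z).trans hab)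
    fun x => (S.b1 x.1 x.2.1 x.2.2).bdd.imp fun _ h => h.2
  obtain ⟨c0, hc0, H0⟩ := unif_fin (Φ := fun (x : ι × κ) C =>
      ∀ r z, |(S.a0 x.1 x.2 r).1 z| ≤ C) (fun x a b H hab r z => (H r z).trans hab)
    fun x => (S.b0 x.1 x.2).bdd.imp fun _ h => h.2
  obtain ⟨c, hc⟩ : ∃ c : ℝ, c = c0 + c1 := ⟨_, rfl⟩
  have c0' : 0 ≤ c := by rw [hc]; positivity
  refine ⟨c, c0', fun ψ hψ r U => ?_⟩
  have g1 := l2_sum Finset.univ fun i => l2_abs (l2_ps hψ (S.A r U i))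
  have g2 := l2_sum Finset.univ fun k => l2_abs (l2_ps hψ (U k))
  have g3 := l2_sum Finset.univ fun k => l2_sum Finset.univ fun j =>
    l2_abs (l2_ps hψ (dh j (U k)))
  have g4 := l2_add g2 g3
  have g5 := l2_add g1 (l2_mono g4 (g := fun z => c * (∑ k, |ψ z * (U k).1 z| +
    ∑ k, ∑ j, |ψ z * (dh j (U k)).1 z|)) (continuous_const.mul g4.1) c0' fun z => by
      rw [abs_mul, abs_of_nonneg c0'])
  intro k j l
  refine qq_le (l2_mono g5 (l2_ps hψ _).1 (abs_nonneg B) fun z => ?_)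
  have z0 := hψ.lw.pos z
  have u0 : 0 ≤ ∑ k, |ψ z * (U k).1 z| := Finset.sum_nonneg fun _ _ => abs_nonneg _
  have u1 : 0 ≤ ∑ k, ∑ j, |ψ z * (dh j (U k)).1 z| :=
    Finset.sum_nonneg fun _ _ => Finset.sum_nonneg fun _ _ => abs_nonneg _
  have u2 : 0 ≤ ∑ i, |ψ z * (S.A r U i).1 z| := Finset.sum_nonneg fun _ _ => abs_nonneg _
  have key := hB r z (fun k j l => ψ z * (dh j (dh l (U k))).1 z)
    (∑ i, |ψ z * (S.A r U i).1 z| + c * (∑ k, |ψ z * (U k).1 z| +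
      ∑ k, ∑ j, |ψ z * (dh j (U k)).1 z|)) (fun k j l => by rw [dh_comm]) (fun i => by
    have ea : ∑ k, ∑ j, ∑ l, (S.a2 i k j l r).1 z * (ψ z * (dh j (dh l (U k))).1 z) =
        ψ z * (S.A r U i).1 z - (∑ k, (S.a0 i k r).1 z * (ψ z * (U k).1 z) +
          ∑ k, ∑ j, (S.a1 i k j r).1 z * (ψ z * (dh j (U k)).1 z)) := by
      simp only [Cf.A, AddSubmonoidClass.coe_finsetSum, Finset.sum_apply, Subalgebra.coe_add,
        Subalgebra.coe_mul, Pi.add_apply, Pi.mul_apply, Finset.sum_add_distrib, mul_add,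
        Finset.mul_sum, mul_left_comm (ψ z)]
      ring
    have a0 : |∑ k, (S.a0 i k r).1 z * (ψ z * (U k).1 z)| ≤ c0 * ∑ k, |ψ z * (U k).1 z| := by
      rw [Finset.mul_sum]
      refine (Finset.abs_sum_le_sum_abs _ _).trans (Finset.sum_le_sum fun k _ => ?_)
      rw [abs_mul]
      exact mul_le_mul_of_nonneg_right (H0 (i, k) r z) (abs_nonneg _)
    have a1 : |∑ k, ∑ j, (S.a1 i k j r).1 z * (ψ z * (dh j (U k)).1 z)| ≤
        c1 * ∑ k, ∑ j, |ψ z * (dh j (U k)).1 z| := by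
      rw [Finset.mul_sum]
      refine (Finset.abs_sum_le_sum_abs _ _).trans (Finset.sum_le_sum fun k _ => ?_)
      rw [Finset.mul_sum]
      refine (Finset.abs_sum_le_sum_abs _ _).trans (Finset.sum_le_sum fun j _ => ?_)
      rw [abs_mul]
      exact mul_le_mul_of_nonneg_right (H1 (i, k, j) r z) (abs_nonneg _)
    have a2 := Finset.single_le_sum (f := fun i => |ψ z * (S.A r U i).1 z|)
      (fun _ _ => abs_nonneg _) (Finset.mem_univ i)
    rw [ea]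
    refine (abs_sub _ _).trans ((add_le_add a2 ((abs_add_le _ _).trans
      (add_le_add a0 a1))).trans ?_)
    rw [hc]
    nlinarith [mul_nonneg hc0 u1, mul_nonneg hc1 u0]) k l j
  refine key.trans ?_
  rw [abs_of_nonneg (a := _ + _) (by positivity)]
  exact mul_le_mul_of_nonneg_right (le_abs_self B) (by positivity)

theorem arith {B c C n δ x y m0 m1 m2 : ℝ} (B0 : 0 ≤ B) (c0 : 0 ≤ c) (hC : 0 ≤ C) (n0 : 0 ≤ n)
    (hδ : 0 < δ) (hδ1 : 3 * n * δ ≤ 1) (hδ2 : B * c * (3 * n * δ) ≤ 1 / 4) (x0 : 0 ≤ x)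
    (y1 : 0 ≤ y) (p1 : 0 ≤ m1) (p2 : 0 ≤ m2) (e0 : m0 ≤ n * δ * m1 + C * y)
    (e1 : m1 ≤ 3 * n * δ * m2 + C * y) (e2 : m2 ≤ B * (x + c * (m0 + m1))) :
    m0 + m1 + m2 ≤ (6 * B + (3 + 18 * (B * c)) * C) * (x + y) := by
  have y0 : 0 ≤ C * y := mul_nonneg hC y1
  have f0 : m0 ≤ m1 + C * y := by nlinarith [mul_nonneg n0 hδ.le]
  have f1 : m1 ≤ m2 + C * y := by nlinarith
  have f2 : B * c * m1 ≤ m2 / 4 + B * c * (C * y) := by
    nlinarith [mul_le_mul_of_nonneg_left e1 (mul_nonneg B0 c0)]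
  have f3 : B * c * m0 ≤ B * c * m1 + B * c * (C * y) := by
    nlinarith [mul_le_mul_of_nonneg_left f0 (mul_nonneg B0 c0)]
  have f4 : m2 ≤ 2 * (B * x) + 6 * (B * c * (C * y)) := by nlinarith
  nlinarith [mul_nonneg B0 y1, mul_nonneg hC x0, mul_nonneg (mul_nonneg (mul_nonneg B0 c0) hC) x0]

theorem coer (hp : POIN) {B : ℝ}
    (hB : ∀ r z (H : κ → Fin 3 → Fin 3 → ℝ) (s : ℝ), (∀ k j l, H k j l = H k l j) →
      (∀ i, |∑ k, ∑ j, ∑ l, (S.a2 i k j l r).1 z * H k j l| ≤ s) → ∀ k j l, |H k j l| ≤ B * s)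
    (z0 : X3) {ρ : ℝ} (hρ : 0 < ρ) : ∃ (ψ : X3 → ℝ) (b : R) (C1 : ℝ), Wt ψ ∧
      (∀ z, z ∉ Metric.closedBall z0 ρ → b.1 z = 0) ∧ 0 ≤ C1 ∧ ∀ r U, st ψ U ≤
        C1 * (∑ i, qq ψ (S.A r U i) + ∑ k, ∑ s, |I (prof b s * U k)|) := by
  obtain ⟨c, c0', g6⟩ := second S hB
  obtain ⟨n, hn⟩ : ∃ n : ℝ, n = Fintype.card κ := ⟨_, rfl⟩
  have n0 : 0 ≤ n := by rw [hn]; positivity
  obtain ⟨B', hB'⟩ : ∃ B' : ℝ, B' = 9 * n * |B| := ⟨_, rfl⟩
  have B0 : 0 ≤ B' := by rw [hB']; positivity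
  obtain ⟨δ, hδ, hδ1, hδ2⟩ : ∃ δ : ℝ, 0 < δ ∧ 3 * n * δ ≤ 1 ∧ B' * c * (3 * n * δ) ≤ 1 / 4 := by
    refine ⟨1 / ((3 * n + 1) * (4 * (B' * c) + 4)), by positivity, ?_, ?_⟩
    · rw [mul_one_div, div_le_one (by positivity)]
      nlinarith [mul_nonneg B0 c0', mul_nonneg n0 (mul_nonneg B0 c0')]
    · rw [mul_one_div, ← mul_div_assoc, div_le_iff₀ (by positivity)]
      nlinarith [mul_nonneg B0 c0', mul_nonneg n0 (mul_nonneg B0 c0')]
  obtain ⟨ψ, b0, C, hψ, hb, hs, hC, HP⟩ := hp z0 ρ δ hρ hδ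
  have hcs : HasCompactSupport b0 := HasCompactSupport.intro (isCompact_closedBall z0 ρ) hs
  have htg : TG b0 := tg_of_bdd hb fun α => by
    have g : P354H.Good (pdl α b0) := P354H.Good.pdl ⟨hb, hcs⟩ α
    exact (g.1.continuous.bounded_above_of_compact_support g.2)
  let b : R := ⟨b0, htg⟩
  have hdb : Dec b := (fs_of_supp hψ (isCompact_closedBall z0 ρ) (b := b) hs).dec hψ
  refine ⟨ψ, b, 6 * B' + (3 + 18 * (B' * c)) * C, hψ, hs, by positivity, fun r U => ?_⟩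
  obtain ⟨x, hx⟩ : ∃ x, x = ∑ i, qq ψ (S.A r U i) := ⟨_, rfl⟩
  obtain ⟨y, hy⟩ : ∃ y, y = ∑ k, ∑ s, |I (prof b s * U k)| := ⟨_, rfl⟩
  obtain ⟨m0, h0⟩ : ∃ m0, m0 = ∑ k, qq ψ (U k) := ⟨_, rfl⟩
  obtain ⟨m1, h1⟩ : ∃ m1, m1 = ∑ k, ∑ j, qq ψ (dh j (U k)) := ⟨_, rfl⟩
  obtain ⟨m2, h2⟩ : ∃ m2, m2 = ∑ k, ∑ j, ∑ l, qq ψ (dh l (dh j (U k))) := ⟨_, rfl⟩
  have q0 := qq_nonneg ψ
  have x0 : 0 ≤ x := hx ▸ Finset.sum_nonneg fun _ _ => q0 _
  have p1 : 0 ≤ m1 := h1 ▸ Finset.sum_nonneg fun _ _ => Finset.sum_nonneg fun _ _ => q0 _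
  have p2 : 0 ≤ m2 := h2 ▸ Finset.sum_nonneg fun _ _ => Finset.sum_nonneg fun _ _ =>
    Finset.sum_nonneg fun _ _ => q0 _
  have l1 : ∀ k j, qq ψ (dh j (U k)) ≤ m1 := fun k j => h1 ▸
    (Finset.single_le_sum (f := fun j => qq ψ (dh j (U k))) (fun _ _ => q0 _)
      (Finset.mem_univ j)).trans (Finset.single_le_sum (f := fun k => ∑ j, qq ψ (dh j (U k)))
      (fun _ _ => Finset.sum_nonneg fun _ _ => q0 _) (Finset.mem_univ k))
  have l2 : ∀ k j l, qq ψ (dh l (dh j (U k))) ≤ m2 := fun k j l => h2 ▸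
    ((Finset.single_le_sum (f := fun l => qq ψ (dh l (dh j (U k)))) (fun _ _ => q0 _)
      (Finset.mem_univ l)).trans (Finset.single_le_sum
      (f := fun j => ∑ l, qq ψ (dh l (dh j (U k)))) (fun _ _ => Finset.sum_nonneg fun _ _ => q0 _)
      (Finset.mem_univ j))).trans (Finset.single_le_sum
      (f := fun k => ∑ j, ∑ l, qq ψ (dh l (dh j (U k))))
      (fun _ _ => Finset.sum_nonneg fun _ _ => Finset.sum_nonneg fun _ _ => q0 _)
      (Finset.mem_univ k))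
  have hP : ∀ (Y : R) (c1 : ℝ), (∀ i, qq ψ (dh i Y) ≤ c1) → qq ψ Y ≤ δ * c1 + C * |I (b * Y)| :=
    fun Y c1 h => qq_le (HP Y.1 _ c1 (sm Y) (l2_ps hψ Y) fun i => by
      rw [← dh_val]; exact l2_le (l2_ps hψ _) (h i))
  have ey : y = ∑ k, |I (b * U k)| + ∑ k, ∑ j, |I (b * dh j (U k))| := by
    rw [hy, ← Finset.sum_add_distrib]
    refine Finset.sum_congr rfl fun k _ => ?_
    rw [Fin.sum_univ_succ]
    congr 1
    refine Finset.sum_congr rfl fun j _ => ?_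
    rw [ibp_dh hdb, ← I_neg]
    congr 2
    show -(gg j * d j b) * U k = _
    ring
  have ya : 0 ≤ ∑ k, |I (b * U k)| := Finset.sum_nonneg fun _ _ => abs_nonneg _
  have yb : 0 ≤ ∑ k, ∑ j, |I (b * dh j (U k))| :=
    Finset.sum_nonneg fun _ _ => Finset.sum_nonneg fun _ _ => abs_nonneg _
  have e0 : m0 ≤ n * δ * m1 + C * y := by
    have : m0 ≤ ∑ k, (δ * m1 + C * |I (b * U k)|) :=
      h0 ▸ Finset.sum_le_sum fun k _ => hP _ _ (l1 k)
    rw [Finset.sum_add_distrib, ← Finset.mul_sum, ← Finset.mul_sum, Finset.sum_const,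
      Finset.card_univ, nsmul_eq_mul, ← hn] at this
    nlinarith
  have e1 : m1 ≤ 3 * n * δ * m2 + C * y := by
    have : m1 ≤ ∑ k, ∑ j, (δ * m2 + C * |I (b * dh j (U k))|) :=
      h1 ▸ Finset.sum_le_sum fun k _ => Finset.sum_le_sum fun j _ => hP _ _ (l2 k j)
    simp only [Finset.sum_add_distrib, ← Finset.mul_sum, Finset.sum_const, Finset.card_univ,
      nsmul_eq_mul, Fintype.card_fin, ← hn] at this
    push_cast at this
    nlinarith
  have e2 : m2 ≤ B' * (x + c * (m0 + m1)) := by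
    have : m2 ≤ ∑ _k : κ, ∑ _j : Fin 3, ∑ _l : Fin 3, |B| * (x + c * (m0 + m1)) :=
      h2 ▸ Finset.sum_le_sum fun k _ => Finset.sum_le_sum fun j _ =>
        Finset.sum_le_sum fun l _ => by rw [hx, h0, h1]; exact g6 ψ hψ r U k j l
    simp only [Finset.sum_const, Finset.card_univ, nsmul_eq_mul, Fintype.card_fin, ← hn] at this
    push_cast at this
    rw [hB']
    linarith
  rw [st_eq, ← hx, ← hy, ← h0, ← h1, ← h2]
  exact arith B0 c0' hC n0 hδ hδ1 hδ2 x0 (by rw [ey]; positivity) p1 p2 e0 e1 e2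

end Vale.Agent.P354S
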