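import Vale.Agent.P354S.Co

/-!
A priori estimates for solutions of the projected equation.
-/

open scoped ContDiff
open MeasureTheory Set Filter Topology

namespace Vale.Agent.P354S

open Vale.Agent.P354H (X3 e pd pdl Sb pd_sm pdl_sm dif haar)
open Vale.Agent.P354K

variable {P ι κ : Type} [Fintype ι] [Fintype κ] (S : Cf P ι κ) {ψ : X3 → ℝ}

noncomputable def xx (ψ : X3 → ℝ) (r : P) (U : κ → R) : ℝ := ∑ i, qq ψ (S.A r U i)
noncomputable def yy (E : Fin 4 → R) (U : κ → R) : ℝ := ∑ k, ∑ s, |I (E s * U k)|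
noncomputable def vv (h : Wt ψ) (r : P) (U : κ → R) (i : ι) : R := ps h * ps h * S.A r U i
noncomputable def aa (h : Wt ψ) (E : Fin 4 → R) (r : P) (U V : κ → R) : ℝ :=
  ∑ i, I (vv S h r U i * S.A r V i) + ∑ k, ∑ s, I (E s * U k) * I (E s * V k)
noncomputable def FF (f V : κ → R) : ℝ := ∑ k, I (f k * V k)

/-- the coercivity estimate -/
structure Co (E : Fin 4 → R) (ψ : X3 → ℝ) (C1 : ℝ) : Prop where
  fs : ∀ s, Fs ψ (E s)
  pos : 0 ≤ C1
  co : ∀ r U, st ψ U ≤ C1 * (xx S ψ r U + yy E U)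

/-- U solves the equation projected to the invariant subspace W -/
structure Gal (h : Wt ψ) (E : Fin 4 → R) (r : P) (f : κ → R) (W : Submodule ℝ (κ → R))
    (U : κ → R) : Prop where
  inv : ∀ a, ∀ V ∈ W, dU a V ∈ W
  mem : U ∈ W
  eq : ∀ V ∈ W, aa S h E r U V = FF f V

variable {S} {E : Fin 4 → R} {C1 : ℝ}

theorem aa_self (h : Wt ψ) (r : P) (U : κ → R) :
    aa S h E r U U = ∑ i, qq ψ (S.A r U i) ^ 2 + ∑ k, ∑ s, I (E s * U k) ^ 2 := by
  simp only [aa, vv, I_sq, sq]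

theorem aa_nonneg (h : Wt ψ) (r : P) (U : κ → R) : 0 ≤ aa S h E r U U := by
  rw [aa_self]; positivity

theorem q_le_aa (h : Wt ψ) (r : P) (U : κ → R) (i : ι) :
    qq ψ (S.A r U i) ≤ √(aa S h E r U U) := by
  refine Real.le_sqrt_of_sq_le ?_
  rw [aa_self]
  have := Finset.single_le_sum (f := fun i => qq ψ (S.A r U i) ^ 2) (fun _ _ => sq_nonneg _)
    (Finset.mem_univ i)
  have k : 0 ≤ ∑ k, ∑ s, I (E s * U k) ^ 2 := by positivity
  linarith

theorem l_le_aa (h : Wt ψ) (r : P) (U : κ → R) (k : κ) (s : Fin 4) :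
    |I (E s * U k)| ≤ √(aa S h E r U U) := by
  refine Real.le_sqrt_of_sq_le ?_
  rw [aa_self, sq_abs]
  have k1 := Finset.single_le_sum (f := fun s => I (E s * U k) ^ 2) (fun _ _ => sq_nonneg _)
    (Finset.mem_univ s)
  have k2 := Finset.single_le_sum (f := fun k => ∑ s, I (E s * U k) ^ 2)
    (fun _ _ => by positivity) (Finset.mem_univ k)
  have k : 0 ≤ ∑ i, qq ψ (S.A r U i) ^ 2 := by positivity
  linarith

theorem Co.st_le (c : Co S E ψ C1) (h : Wt ψ) (r : P) (U : κ → R) :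
    st ψ U ≤ C1 * (Fintype.card ι + Fintype.card κ * 4) * √(aa S h E r U U) := by
  have k1 : xx S ψ r U ≤ ∑ _i : ι, √(aa S h E r U U) :=
    Finset.sum_le_sum fun i _ => q_le_aa h r U i
  have k2 : yy E U ≤ ∑ _k : κ, ∑ _s : Fin 4, √(aa S h E r U U) :=
    Finset.sum_le_sum fun k _ => Finset.sum_le_sum fun s _ => l_le_aa h r U k s
  simp only [Finset.sum_const, Finset.card_univ, nsmul_eq_mul, Fintype.card_fin] at k1 k2
  push_cast at k2
  refine (c.co r U).trans ?_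
  rw [mul_assoc]
  exact mul_le_mul_of_nonneg_left (by linarith) c.pos

theorem Co.e0 (c : Co S E ψ C1) {h : Wt ψ} {r : P} {f U : κ → R} {W : Submodule ℝ (κ → R)}
    (g : Gal S h E r f W U) {M : ℝ} (hM : 0 ≤ M) (hf : ∀ V, |FF f V| ≤ M * st ψ V) :
    √(aa S h E r U U) ≤ C1 * (Fintype.card ι + Fintype.card κ * 4) * M := by
  have k1 := c.st_le h r U
  have k2 := (le_abs_self _).trans (hf U)
  rw [← g.eq U g.mem, ← Real.mul_self_sqrt (aa_nonneg h r U)] at k2
  have k3 := k2.trans (mul_le_mul_of_nonneg_left k1 hM)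
  have := c.pos
  rcases (Real.sqrt_nonneg (aa S h E r U U)).eq_or_lt with h0 | h0
  · rw [← h0]; positivity
  · exact le_of_mul_le_mul_right (k3.trans (le_of_eq (by ring))) h0

theorem FF_le (h : Wt ψ) {f : κ → R} {b : ℝ} (hf : ∀ k, L2 (fun z => sw ψ z * (f k).1 z) b)
    {V : κ → R} {c : ℝ} (hV : ∀ k, qq ψ (V k) ≤ c) : |FF f V| ≤ Fintype.card κ * b * c := by
  refine (Finset.abs_sum_le_sum_abs _ _).trans ((Finset.sum_le_sum fun k _ =>
    (pair_le h (hf k) _).2.trans (mul_le_mul_of_nonneg_left (hV k) (hf k).2.2.1)).trans ?_)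
  simp only [Finset.sum_const, Finset.card_univ, nsmul_eq_mul, mul_assoc, le_refl]

omit [Fintype κ] in
theorem I_tau {f : R} (hf : Dec f) (w1 w2 : List (Fin 3)) (V : κ → R) (k : κ) :
    I (f * tau (w1 ++ w2) V k) = I (dw w1 f * tau w2 V k) := by
  induction w1 generalizing f with
  | nil => rfl
  | cons a w ih =>
    rw [dw_cons, ← ih (hf.d a)]
    show I (f * -d a (tau (w ++ w2) V k)) = _
    rw [show ∀ x y : R, x * -y = -(x * y) from fun x y => by ring, I_neg, ibp hf, neg_neg]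

theorem I_dw (h : Wt ψ) (w : List (Fin 3)) : ∀ {E : R}, Fs ψ E →
    ∃ C, 0 ≤ C ∧ ∀ u : R, |I (E * dw w u)| ≤ C * qq ψ u := by
  induction w using List.reverseRecOn with
  | nil => exact fun hE => ⟨_, qq_nonneg _ _, fun u => (pair_le h hE.l2 u).2⟩
  | append_singleton w a ih =>
    intro E hE
    obtain ⟨C, hC, H⟩ := ih (hE.d a)
    refine ⟨C, hC, fun u => ?_⟩
    rw [dw_snoc, ibp (hE.dec h), abs_neg]
    exact H u

omit [Fintype κ] in
theorem tau_mem {W : Submodule ℝ (κ → R)} (hW : ∀ a, ∀ V ∈ W, dU a V ∈ W) (w : List (Fin 3))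
    {V : κ → R} (hV : V ∈ W) : tau w V ∈ W := by
  induction w with
  | nil => exact hV
  | cons a w ih => exact W.neg_mem (hW a _ ih)

omit [Fintype κ] in
theorem dUw_mem {W : Submodule ℝ (κ → R)} (hW : ∀ a, ∀ V ∈ W, dU a V ∈ W) (w : List (Fin 3))
    {V : κ → R} (hV : V ∈ W) : dUw w V ∈ W := by
  induction w generalizing V with
  | nil => exact hV
  | cons a w ih => exact ih (hW a _ hV)

theorem st_le_nl {w : List (Fin 3)} (hw : w ≠ []) (U : κ → R) :
    st ψ U ≤ nl dU (st ψ) w.length U :=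
  le_nl' (Z := dU) (w := []) (st_nonneg ψ) (List.length_pos_iff.2 hw) U

variable (S) in
theorem A_le (h : Wt ψ) : ∃ C, 0 ≤ C ∧ ∀ i r U, qq ψ (S.A r U i) ≤ C * st ψ U :=
  unif_fin (Φ := fun i C => ∀ r U, qq ψ (S.A r U i) ≤ C * st ψ U)
    (fun _ _ _ H hab r U => (H r U).trans (mul_le_mul_of_nonneg_right hab (st_nonneg _ _)))
    fun i => ((S.opr1 i).bound h (hm_one ψ)).imp fun _ H r U => qq_le (H.2 (r, U))

variable (S) in
theorem v_err (h : Wt ψ) (w : List (Fin 3)) : ∃ C, 0 ≤ C ∧ ∀ i r U,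
    L2 (fun z => sw ψ z * (dw w (vv S h r U i) - vv S h r (dUw w U) i).1 z)
      (C * nl dU (st ψ) w.length U) :=
  unif_fin (Φ := fun i C => ∀ r U,
    L2 (fun z => sw ψ z * (dw w (vv S h r U i) - vv S h r (dUw w U) i).1 z)
      (C * nl dU (st ψ) w.length U))
    (fun _ _ _ H hab r U => l2_le (H r U)
      (mul_le_mul_of_nonneg_right hab (nl_nonneg (st_nonneg _) _ _)))
    fun i => (comm1 h (S.opr _ i) w).imp fun _ H => H.2

variable (S) in
theorem v_top (h : Wt ψ) (n : ℕ) : ∃ C, 0 ≤ C ∧ ∀ w : List (Fin 3), w.length ≤ n → ∀ i r U,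
    L2 (fun z => sw ψ z * (dw w (vv S h r U i)).1 z)
      (qq ψ (S.A r (dUw w U) i) + C * nl dU (st ψ) w.length U) := by
  refine unif (fun w a b H hab i r U => l2_le (H i r U) (by
    have := mul_le_mul_of_nonneg_right hab (nl_nonneg (Z := dU) (st_nonneg ψ) w.length U)
    linarith)) (fun w => ?_) n
  obtain ⟨C, -, H⟩ := v_err S h w
  refine ⟨C, fun i r U => ?_⟩
  have k := l2_ps h (S.A r (dUw w U) i)
  rw [← sw_ps h] at k
  have := l2_add k (H i r U)
  refine (congrArg (fun F => L2 F _) (funext fun z => ?_)).mp this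
  show sw ψ z * (vv S h r (dUw w U) i).1 z + sw ψ z * ((dw w (vv S h r U i)).1 z -
    (vv S h r (dUw w U) i).1 z) = _
  ring

variable (S) in
theorem v_all (h : Wt ψ) (n : ℕ) : ∃ C, 0 ≤ C ∧ ∀ w : List (Fin 3), w.length < n → ∀ i r U,
    L2 (fun z => sw ψ z * (dw w (vv S h r U i)).1 z) (C * nl dU (st ψ) n U) := by
  obtain ⟨C, hC, H⟩ := v_top S h n
  obtain ⟨CA, hA, HA⟩ := A_le S h
  refine ⟨CA + C, by positivity, fun w hw i r U => l2_le (H w hw.le i r U) ?_⟩
  have k1 := (HA i r (dUw w U)).trans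
    (mul_le_mul_of_nonneg_left (le_nl' (Z := dU) (st_nonneg ψ) hw U) hA)
  have k2 := mul_le_mul_of_nonneg_left (nl_mono (Z := dU) (st_nonneg ψ) hw.le U) hC
  linarith

theorem yy_le (h : Wt ψ) (hE : ∀ s, Fs ψ (E s)) (w : List (Fin 3)) :
    ∃ C, 0 ≤ C ∧ ∀ (U : κ → R) k s, |I (E s * dUw w U k)| ≤ C * st ψ U := by
  obtain ⟨C, hC, H⟩ := unif_fin (Φ := fun s C => ∀ u : R, |I (E s * dw w u)| ≤ C * qq ψ u)
    (fun _ _ _ H hab u => (H u).trans (mul_le_mul_of_nonneg_right hab (qq_nonneg _ _)))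
    fun s => (I_dw h w (hE s)).imp fun _ H => H.2
  refine ⟨C, hC, fun U k s => ?_⟩
  rw [dUw_apply]
  exact (H s _).trans (mul_le_mul_of_nonneg_left (le_st ψ U k (β := []) (by simp)) hC)

theorem Co.st_w (c : Co S E ψ C1) (h : Wt ψ) {w : List (Fin 3)} (hw : w ≠ []) :
    ∃ C, 0 ≤ C ∧ ∀ r U, st ψ (dUw w U) ≤
      C1 * (xx S ψ r (dUw w U) + C * nl dU (st ψ) w.length U) := by
  obtain ⟨C, hC, H⟩ := yy_le (κ := κ) h c.fs w
  refine ⟨Fintype.card κ * (4 * C), by positivity, fun r U => (c.co r _).trans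
    (mul_le_mul_of_nonneg_left (add_le_add le_rfl ?_) c.pos)⟩
  have k : yy E (dUw w U) ≤ ∑ _k : κ, ∑ _s : Fin 4, C * nl dU (st ψ) w.length U :=
    Finset.sum_le_sum fun k _ => Finset.sum_le_sum fun s _ =>
      (H U k s).trans (mul_le_mul_of_nonneg_left (st_le_nl hw U) hC)
  simp only [Finset.sum_const, Finset.card_univ, nsmul_eq_mul, Fintype.card_fin] at k
  push_cast at k
  linarith

/-- the energy inequality for a word -/
theorem Co.energy (c : Co S E ψ C1) (h : Wt ψ) {w : List (Fin 3)} (hw : w ≠ []) :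
    ∃ C, 0 ≤ C ∧ ∀ r U, ∑ i, qq ψ (S.A r (dUw w U) i) ^ 2 ≤
      aa S h E r U (tau w (dUw w U)) + C * nl dU (st ψ) w.length U * st ψ (dUw w U) := by
  obtain ⟨C2, h2, H2⟩ := comm2 (P := P) h (Frm.sum Finset.univ fun i => Frm.base i (S.opr1 i)) w
  obtain ⟨C3, h3, H3⟩ := v_all S h w.length
  obtain ⟨C4, h4, H4⟩ := v_err S h w
  obtain ⟨C5, h5, H5⟩ := A_le S h
  obtain ⟨C6, h6, H6⟩ := yy_le (κ := κ) h c.fs []
  obtain ⟨C7, h7, H7⟩ := yy_le (κ := κ) h (E := fun s => dw w (E s)) (fun s => (c.fs s).dw w) []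
  refine ⟨C2 * (4 ^ w.length * (Fintype.card ι * C3)) + Fintype.card ι * (C4 * C5) +
    Fintype.card κ * (4 * (C6 * C7)), by positivity, fun r U => ?_⟩
  obtain ⟨N, hN⟩ : ∃ N, N = nl dU (st ψ) w.length U := ⟨_, rfl⟩
  have N0 : 0 ≤ N := hN ▸ nl_nonneg (st_nonneg ψ) _ _
  obtain ⟨U', hU⟩ : ∃ U', U' = dUw w U := ⟨_, rfl⟩
  have s0 := st_nonneg ψ U'
  let v : FV ψ ι := ⟨vv S h r U, fun i => fs_ps h _⟩
  have k1 : nl dV (fun v : FV ψ ι => ∑ i, qq (sw ψ) (v.1 i)) w.length v ≤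
      4 ^ w.length * (Fintype.card ι * C3 * N) := by
    refine nl_le (by positivity) _ _ fun w' hw' => ?_
    have : ∑ i, qq (sw ψ) ((wd dV w' v).1 i) ≤ ∑ _i : ι, C3 * N :=
      Finset.sum_le_sum fun i _ => by
        rw [wd_dV, dUw_apply, hN]; exact qq_le (H3 w' hw' i r U)
    simpa [mul_assoc] using this
  have k2 := (neg_le_abs _).trans ((H2 r v U').trans
    (mul_le_mul_of_nonneg_right (mul_le_mul_of_nonneg_left k1 h2) s0))
  have k3 : ∀ i, qq ψ (S.A r U' i) ^ 2 ≤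
      I ((wd dV w v).1 i * S.A r U' i) + C4 * C5 * N * st ψ U' := fun i => by
    have e : (wd dV w v).1 i * S.A r U' i = ps h * ps h * S.A r U' i * S.A r U' i +
        (dw w (vv S h r U i) - vv S h r U' i) * S.A r U' i := by
      rw [wd_dV, dUw_apply]
      show dw w (vv S h r U i) * _ = vv S h r U' i * _ + _
      ring
    have e2 := H4 i r U
    rw [← hU, ← hN] at e2
    have e3 := (neg_le_abs _).trans ((pair_le h e2 (S.A r U' i)).2.trans
      (mul_le_mul_of_nonneg_left (H5 i r U') e2.2.2.1))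
    have d1 : Dec (ps h * ps h * S.A r U' i) := (fs_ps h _).dec h
    have d2 : Dec (dw w (vv S h r U i)) := ((fs_ps h _).dw w).dec h
    have d3 : Dec (dw w (vv S h r U i) - vv S h r U' i) := d2.sub d1
    rw [e, I_add (Dec.mul' d1 _) (d3.mul' _), I_sq]
    linarith
  have k4 := Finset.sum_le_sum fun i (_ : i ∈ Finset.univ) => k3 i
  have k5 : ∀ k s, -(C6 * C7 * N * st ψ U') ≤ I (E s * U k) * I (E s * tau w U' k) := fun k s => by
    have e1 := (H6 U k s).trans (mul_le_mul_of_nonneg_left (st_le_nl hw U) h6)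
    have e2 := H7 U' k s
    have e3 := I_tau ((c.fs s).dec h) w [] U' k
    rw [List.append_nil] at e3
    rw [e3]
    refine neg_le_of_abs_le ?_
    rw [abs_mul]
    exact (mul_le_mul e1 e2 (abs_nonneg _) ((abs_nonneg _).trans e1)).trans
      (le_of_eq (by rw [hN]; ring))
  have k6 := Finset.sum_le_sum fun k (_ : k ∈ Finset.univ) =>
    Finset.sum_le_sum fun s (_ : s ∈ Finset.univ) => k5 k s
  simp only [Finset.sum_add_distrib, Finset.sum_const, Finset.card_univ, nsmul_eq_mul,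
    Fintype.card_fin] at k4 k6
  push_cast at k6
  rw [← hU, ← hN, aa]
  have k7 : ∑ i, I (v.1 i * S.A r (tau w U') i) = ∑ i, I (vv S h r U i * S.A r (tau w U') i) := rfl
  simp only at k2
  linarith

theorem Co.ew (c : Co S E ψ C1) (h : Wt ψ) : ∃ C0, 0 ≤ C0 ∧ ∀ w : List (Fin 3), w ≠ [] →
    ∃ C, ∀ r f W U, Gal S h E r f W U → (∀ k, Fs ψ (f k)) → ∀ w1 w2 a, w = w1 ++ w2 →
      w2.length ≤ 2 → 0 ≤ a → (∀ k, L2 (fun z => sw ψ z * (dw w1 (f k)).1 z) a) →
      xx S ψ r (dUw w U) ≤ C0 * a + C * nl dU (st ψ) w.length U := by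
  obtain ⟨Ct, ht, Ht⟩ := tau_le (κ := κ) h
  have p1 := c.pos
  refine ⟨2 * (Fintype.card ι * C1 * (Fintype.card κ * Ct)), by positivity, fun w hw => ?_⟩
  obtain ⟨C2, h2, H2⟩ := c.energy h hw
  obtain ⟨C3, h3, H3⟩ := c.st_w h hw
  refine ⟨2 * (Fintype.card ι * C1 * C2) + C3, fun r f W U g hf w1 w2 a e h2' ha Ha => ?_⟩
  obtain ⟨N, hN⟩ : ∃ N, N = nl dU (st ψ) w.length U := ⟨_, rfl⟩
  have N0 : 0 ≤ N := hN ▸ nl_nonneg (st_nonneg ψ) _ _
  have k1 := H2 r U
  have k2 := H3 r U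
  rw [g.eq _ (tau_mem g.inv w (dUw_mem g.inv w g.mem))] at k1
  obtain ⟨U', hU⟩ : ∃ U', U' = dUw w U := ⟨_, rfl⟩
  rw [← hU, ← hN] at k1 k2 ⊢
  have k3 : FF f (tau w U') = FF (fun k => dw w1 (f k)) (tau w2 U') :=
    Finset.sum_congr rfl fun k _ => by rw [e, I_tau ((hf k).dec h)]
  have k4 := (le_abs_self _).trans (FF_le h Ha (Ht w2 h2' U'))
  have k5 : xx S ψ r U' ^ 2 ≤ Fintype.card ι * ∑ i, qq ψ (S.A r U' i) ^ 2 := by
    have := sq_sum_le_card_mul_sum_sq (s := Finset.univ) (f := fun i => qq ψ (S.A r U' i))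
    rwa [Finset.card_univ] at this
  have k6 : ∑ i, qq ψ (S.A r U' i) ^ 2 ≤
      (Fintype.card κ * a * Ct + C2 * N) * (C1 * (xx S ψ r U' + C3 * N)) :=
    le_trans (by rw [k3] at k1; linarith) (mul_le_mul_of_nonneg_left k2 (by positivity))
  have k7 := quad_le (x := xx S ψ r U')
    (a := Fintype.card ι * C1 * (Fintype.card κ * a * Ct + C2 * N)) (b := C3 * N) (c := 1)
    (by positivity) (by positivity) zero_le_one
    (k5.trans ((mul_le_mul_of_nonneg_left k6 (by positivity)).trans (le_of_eq (by ring))))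
  linarith

theorem Co.nl_bd (c : Co S E ψ C1) (h : Wt ψ) (n m : ℕ) (hm : m ≤ n + 3) :
    ∃ C, 0 ≤ C ∧ ∀ r f W U b, Gal S h E r f W U → (∀ k, Fs ψ (f k)) → 0 ≤ b →
      (∀ k (α : List (Fin 3)), α.length ≤ n → L2 (fun z => sw ψ z * (dw α (f k)).1 z) b) →
      nl dU (st ψ) m U ≤ C * b := by
  induction m with
  | zero => exact ⟨0, le_rfl, fun _ _ _ _ _ _ _ _ _ => by simp [nl]⟩
  | succ m ih =>
    obtain ⟨C, hC, H⟩ := ih (by omega)
    obtain ⟨C0, h0, H0⟩ := c.ew h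
    have p1 := c.pos
    obtain ⟨C2, h2, H2⟩ := unif (Φ := fun w C => w.length ≤ m → ∀ r f W U b, Gal S h E r f W U →
        (∀ k, Fs ψ (f k)) → 0 ≤ b → (∀ k (α : List (Fin 3)), α.length ≤ n →
          L2 (fun z => sw ψ z * (dw α (f k)).1 z) b) → st ψ (dUw w U) ≤ C * b)
      (fun w a a' H hab hw r f W U b g hf hb Hb =>
        (H hw r f W U b g hf hb Hb).trans (mul_le_mul_of_nonneg_right hab hb)) (fun w => by
      by_cases hw : w = []
      · subst hw
        refine ⟨(C1 * (Fintype.card ι + Fintype.card κ * 4)) ^ 2 * Fintype.card κ,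
          fun _ r f W U b g hf hb Hb => ?_⟩
        have k := c.e0 g (M := Fintype.card κ * b) (by positivity) fun V =>
          FF_le h (fun k => Hb k [] (Nat.zero_le _)) fun k => le_st ψ V k (β := []) (by simp)
        exact (c.st_le h r U).trans ((mul_le_mul_of_nonneg_left k (by positivity)).trans
          (le_of_eq (by ring)))
      · obtain ⟨C3, H3⟩ := H0 w hw
        obtain ⟨C4, h4, H4⟩ := c.st_w h hw
        refine ⟨C1 * (C0 + (|C3| + C4) * C), fun hl r f W U b g hf hb Hb => ?_⟩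
        have k1 := H3 r f W U g hf (w.take (w.length - 2)) (w.drop (w.length - 2)) b
          (List.take_append_drop _ _).symm (by rw [List.length_drop]; omega) hb
          fun k => Hb k _ (by rw [List.length_take]; omega)
        have k2 := (nl_mono (Z := dU) (st_nonneg ψ) hl U).trans (H r f W U b g hf hb Hb)
        have k3 := nl_nonneg (Z := dU) (st_nonneg ψ) w.length U
        have k4 := mul_le_mul_of_nonneg_right (le_abs_self C3) k3
        have k5 := mul_le_mul_of_nonneg_left k2 (by positivity : 0 ≤ |C3| + C4)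
        refine (H4 r U).trans ?_
        rw [mul_assoc]
        exact mul_le_mul_of_nonneg_left (by linarith) p1) m
    refine ⟨4 ^ (m + 1) * C2, by positivity, fun r f W U b g hf hb Hb => ?_⟩
    rw [mul_assoc]
    exact nl_le (by positivity) _ _ fun w hw =>
      H2 w (Nat.le_of_lt_succ hw) (Nat.le_of_lt_succ hw) r f W U b g hf hb Hb

/-- the estimates of the theorem -/
structure Bnd (ψ : X3 → ℝ) (C0 : ℝ) (C : ℕ → ℝ) (f : κ → R) (v : ι → R) : Prop where
  all : ∀ n b, 0 ≤ b →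
    (∀ k (α : List (Fin 3)), α.length ≤ n → L2 (fun z => sw ψ z * (dw α (f k)).1 z) b) →
    ∀ i (α : List (Fin 3)), α.length ≤ n + 2 → L2 (fun z => sw ψ z * (dw α (v i)).1 z) (C n * b)
  top : ∀ n a b, 0 ≤ a → 0 ≤ b →
    (∀ k (α : List (Fin 3)), α.length = n + 1 → L2 (fun z => sw ψ z * (dw α (f k)).1 z) a) →
    (∀ k (α : List (Fin 3)), α.length ≤ n → L2 (fun z => sw ψ z * (dw α (f k)).1 z) b) →
    ∀ i (α : List (Fin 3)), α.length = n + 3 →
      L2 (fun z => sw ψ z * (dw α (v i)).1 z) (C0 * a + C n * b)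

theorem Co.bnd (c : Co S E ψ C1) (h : Wt ψ) : ∃ (C0 : ℝ) (C : ℕ → ℝ), 0 ≤ C0 ∧ (∀ n, 0 ≤ C n) ∧
    ∀ r f W U, Gal S h E r f W U → (∀ k, Fs ψ (f k)) → Bnd ψ C0 C f (vv S h r U) := by
  obtain ⟨C0, h0, H0⟩ := c.ew h
  choose C1 h1 H1 using fun n => c.nl_bd h n (n + 3) le_rfl
  choose C2 h2 H2 using fun n => v_all S h (n + 3)
  choose C3 h3 H3 using fun n => v_top S h (n + 3)
  choose C4 h4 H4 using fun n => unif (Φ := fun w C => w ≠ [] → ∀ r f W U, Gal S h E r f W U →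
      (∀ k, Fs ψ (f k)) → ∀ w1 w2 a, w = w1 ++ w2 → w2.length ≤ 2 → 0 ≤ a →
      (∀ k, L2 (fun z => sw ψ z * (dw w1 (f k)).1 z) a) →
      xx S ψ r (dUw w U) ≤ C0 * a + C * nl dU (st ψ) w.length U)
    (fun w a a' H hab hw r f W U g hf w1 w2 b e h2 hb Hb =>
      (H hw r f W U g hf w1 w2 b e h2 hb Hb).trans (add_le_add le_rfl
        (mul_le_mul_of_nonneg_right hab (nl_nonneg (st_nonneg ψ) _ _)))) (fun w => by
      by_cases hw : w = []
      · exact ⟨0, fun h' => absurd hw h'⟩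
      · exact (H0 w hw).imp fun _ H _ => H) (n + 3)
  refine ⟨C0, fun n => (C2 n + C3 n + C4 n) * C1 n, h0, fun n => by
    have := h1 n; have := h2 n; have := h3 n; have := h4 n; positivity,
    fun r f W U g hf => ⟨fun n b hb Hb i α hα => ?_, fun n a b ha hb Ha Hb i α hα => ?_⟩⟩
  · refine l2_le (H2 n α (by omega) i r U) ?_
    have k := mul_le_mul_of_nonneg_left (H1 n r f W U b g hf hb Hb) (h2 n)
    have k2 := mul_nonneg (add_nonneg (h3 n) (h4 n)) (mul_nonneg (h1 n) hb)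
    linarith
  · refine l2_le (H3 n α hα.le i r U) ?_
    have k1 := H4 n α hα.le (by rintro rfl; simp at hα) r f W U g hf (α.take (n + 1))
      (α.drop (n + 1)) a (List.take_append_drop _ _).symm (by rw [List.length_drop]; omega) ha
      fun k => Ha k _ (by rw [List.length_take]; omega)
    have k2 := Finset.single_le_sum (f := fun i => qq ψ (S.A r (dUw α U) i))
      (fun _ _ => qq_nonneg _ _) (Finset.mem_univ i)
    have k3 := mul_le_mul_of_nonneg_left (H1 n r f W U b g hf hb Hb) (add_nonneg (h3 n) (h4 n))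
    have k4 := mul_nonneg (h2 n) (mul_nonneg (h1 n) hb)
    rw [hα] at k1 ⊢
    unfold xx at k1
    linarith

end Vale.Agent.P354S
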