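import Vale.Agent.P354S.Ring

/-!
L2 norms, rapidly decaying functions, integration by parts, uniqueness for the Fourier transform.
-/

open scoped ContDiff
open MeasureTheory Set Filter Topology

namespace Vale.Agent.P354S

open Vale.Agent.P354H (X3 e pd pdl Sb pd_sm pdl_sm dif haar)
open Vale.Agent.P354K

section L2
variable {f g : X3 → ℝ} {a b : ℝ}

theorem l2_int (hf : L2 f a) (hg : L2 g b) : Integrable fun z => f z * g z := by
  refine (hf.2.1.add hg.2.1).mono' (hf.1.mul hg.1).aestronglyMeasurable (.of_forall fun z => ?_)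
  rw [Real.norm_eq_abs, abs_le]
  simp only [Pi.add_apply]
  constructor <;> nlinarith [sq_nonneg (f z + g z), sq_nonneg (f z - g z)]

theorem l2_cs (hf : L2 f a) (hg : L2 g b) : |∫ z, f z * g z| ≤ a * b := by
  have h : ∀ t : ℝ, 0 ≤ a ^ 2 * (t * t) + (2 * ∫ z, f z * g z) * t + b ^ 2 := by
    intro t
    have h0 : 0 ≤ ∫ z, (f z ^ 2 * (t * t) + (2 * t) * (f z * g z) + g z ^ 2) :=
      integral_nonneg fun z => by
        have : 0 ≤ (f z * t + g z) ^ 2 := sq_nonneg _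
        simp only [Pi.zero_apply]
        nlinarith
    rw [P354H.int3 (hf.2.1.mul_const _) ((l2_int hf hg).const_mul _) hg.2.1, integral_mul_const,
      integral_const_mul] at h0
    nlinarith [hf.2.2.2, hg.2.2.2, mul_self_nonneg t]
  have hd := discrim_le_zero h
  rw [discrim] at hd
  refine abs_le_of_sq_le_sq ?_ (mul_nonneg hf.2.2.1 hg.2.2.1)
  nlinarith

theorem l2_le (hf : L2 f a) (h : a ≤ b) : L2 f b :=
  ⟨hf.1, hf.2.1, hf.2.2.1.trans h, hf.2.2.2.trans (pow_le_pow_left₀ hf.2.2.1 h 2)⟩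

theorem l2_add (hf : L2 f a) (hg : L2 g b) : L2 (fun z => f z + g z) (a + b) := by
  have e : (fun z => (f z + g z) ^ 2) = fun z => f z ^ 2 + 2 * (f z * g z) + g z ^ 2 := by
    funext z; ring
  refine ⟨hf.1.add hg.1, ?_, add_nonneg hf.2.2.1 hg.2.2.1, ?_⟩
  · rw [e]; exact (hf.2.1.add ((l2_int hf hg).const_mul 2)).add hg.2.1
  · rw [e, P354H.int3 hf.2.1 ((l2_int hf hg).const_mul _) hg.2.1, integral_const_mul]
    nlinarith [hf.2.2.2, hg.2.2.2, (le_abs_self _).trans (l2_cs hf hg)]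

theorem l2_mono (hf : L2 f a) (hg : Continuous g) {c : ℝ} (hc : 0 ≤ c)
    (h : ∀ z, |g z| ≤ c * |f z|) : L2 g (c * a) := by
  have h2 : ∀ z, g z ^ 2 ≤ c ^ 2 * f z ^ 2 := fun z => by
    have := pow_le_pow_left₀ (abs_nonneg _) (h z) 2
    rwa [mul_pow, sq_abs, sq_abs] at this
  have hi : Integrable fun z => g z ^ 2 :=
    (hf.2.1.const_mul (c ^ 2)).mono' (hg.pow 2).aestronglyMeasurable
      (.of_forall fun z => by rw [Real.norm_eq_abs, abs_of_nonneg (sq_nonneg _)]; exact h2 z)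
  refine ⟨hg, hi, mul_nonneg hc hf.2.2.1, (integral_mono hi (hf.2.1.const_mul _) h2).trans ?_⟩
  rw [integral_const_mul, mul_pow]
  exact mul_le_mul_of_nonneg_left hf.2.2.2 (sq_nonneg c)

theorem l2_zero : L2 (fun _ => 0) 0 := ⟨continuous_const, by simp, le_rfl, by simp⟩

theorem l2_abs (hf : L2 f a) : L2 (fun z => |f z|) a := by
  simpa using l2_mono hf hf.1.abs zero_le_one (g := fun z => |f z|) fun z => by simp

theorem l2_sum {ι : Type} (s : Finset ι) {F : ι → X3 → ℝ} {c : ι → ℝ} (h : ∀ i, L2 (F i) (c i)) :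
    L2 (fun z => ∑ i ∈ s, F i z) (∑ i ∈ s, c i) := by
  classical
  induction s using Finset.induction_on with
  | empty => simpa using l2_zero
  | insert i s hi ih => simpa [Finset.sum_insert hi] using l2_add (h i) ih

theorem l2_lim {F : ℕ → X3 → ℝ} (hf : Continuous f) (h : ∀ᶠ n in atTop, L2 (F n) a)
    (hl : ∀ z, Tendsto (fun n => F n z) atTop (𝓝 (f z))) : L2 f a := by
  obtain ⟨N, hN⟩ := eventually_atTop.1 h
  have ha := (hN N le_rfl).2.2.1
  have k : ∫⁻ z, ENNReal.ofReal (f z ^ 2) ≤ ENNReal.ofReal (a ^ 2) := by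
    have k1 : ∀ z, ENNReal.ofReal (f z ^ 2) =
        liminf (fun n => ENNReal.ofReal (F (n + N) z ^ 2)) atTop := fun z =>
      ((ENNReal.tendsto_ofReal (((hl z).comp (tendsto_add_atTop_nat N)).pow 2)).liminf_eq).symm
    simp only [k1]
    refine (lintegral_liminf_le fun n =>
      (((hN _ (Nat.le_add_left N n)).1.pow 2).measurable.ennreal_ofReal)).trans ?_
    refine liminf_le_of_frequently_le' (Frequently.of_forall fun n => ?_)
    have h2 := hN _ (Nat.le_add_left N n)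
    show ∫⁻ z, ENNReal.ofReal (F (n + N) z ^ 2) ≤ _
    rw [← ofReal_integral_eq_lintegral_ofReal h2.2.1 (.of_forall fun z => sq_nonneg _)]
    exact ENNReal.ofReal_le_ofReal h2.2.2.2
  have hi : Integrable fun z => f z ^ 2 := by
    refine ⟨(hf.pow 2).aestronglyMeasurable, ?_⟩
    rw [hasFiniteIntegral_iff_ofReal (.of_forall fun z => sq_nonneg _)]
    exact k.trans_lt ENNReal.ofReal_lt_top
  refine ⟨hf, hi, ha, ?_⟩
  rw [← ofReal_integral_eq_lintegral_ofReal hi (.of_forall fun z => sq_nonneg _)] at k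
  exact (ENNReal.ofReal_le_ofReal_iff (sq_nonneg a)).1 k

end L2

/-- the weighted L2 norm -/
noncomputable def qq (W : X3 → ℝ) (g : R) : ℝ := √(∫ z, (W z * g.1 z) ^ 2)

theorem qq_nonneg (W : X3 → ℝ) (g : R) : 0 ≤ qq W g := Real.sqrt_nonneg _

theorem qq_sq (W : X3 → ℝ) (g : R) : qq W g ^ 2 = ∫ z, (W z * g.1 z) ^ 2 :=
  Real.sq_sqrt (integral_nonneg fun _ => sq_nonneg _)

theorem qq_le {W : X3 → ℝ} {g : R} {c : ℝ} (h : L2 (fun z => W z * g.1 z) c) : qq W g ≤ c :=
  Real.sqrt_le_iff.2 ⟨h.2.2.1, h.2.2.2⟩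

theorem l2_qq {W : X3 → ℝ} {g : R} {c : ℝ} (h : L2 (fun z => W z * g.1 z) c) :
    L2 (fun z => W z * g.1 z) (qq W g) := ⟨h.1, h.2.1, qq_nonneg _ _, (qq_sq W g).ge⟩

/-! ### Decaying functions -/

/-- the integral -/
noncomputable def I (g : R) : ℝ := ∫ z, g.1 z

/-- rapidly decaying -/
def Dec (w : R) : Prop := ∀ α (g : R), Integrable (dw α w * g).1

theorem Dec.d {w : R} (h : Dec w) (j : Fin 3) : Dec (d j w) := fun α => h (j :: α)

theorem Dec.int {w : R} (h : Dec w) (g : R) : Integrable (w * g).1 := h [] g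

theorem Dec.int1 {w : R} (h : Dec w) : Integrable w.1 := by simpa using h.int 1

theorem Dec.add {w w' : R} (h : Dec w) (h' : Dec w') : Dec (w + w') := fun α g => by
  rw [dw_add, add_mul]; exact (h α g).add (h' α g)

theorem Dec.mul {w : R} (h : Dec w) (c : R) : Dec (c * w) := fun α => by
  induction α generalizing w c with
  | nil =>
    intro g
    have : dw [] (c * w) * g = w * (c * g) := by show c * w * g = _; ring
    rw [this]; exact h.int _
  | cons j α ih =>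
    intro g
    rw [dw_cons, d_mul, dw_add, add_mul]
    exact (ih h _ g).add (ih (h.d j) _ g)

theorem Dec.mul' {w : R} (h : Dec w) (c : R) : Dec (w * c) := by rw [mul_comm]; exact h.mul c

theorem Dec.zero : Dec 0 := fun α g => by
  have : dw α 0 = 0 := by simpa using dw_sub α 0 0
  rw [this, zero_mul]; exact integrable_zero _ _ _

theorem Dec.neg {w : R} (h : Dec w) : Dec (-w) := by
  have : -w = (-1) * w := by ring
  rw [this]; exact h.mul _

theorem Dec.sub {w w' : R} (h : Dec w) (h' : Dec w') : Dec (w - w') := by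
  rw [sub_eq_add_neg]; exact h.add h'.neg

theorem Dec.smul {w : R} (h : Dec w) (c : ℝ) : Dec (c • w) := by
  rw [Algebra.smul_def]; exact h.mul _

theorem Dec.sum {ι : Type} (s : Finset ι) {w : ι → R} (h : ∀ i, Dec (w i)) :
    Dec (∑ i ∈ s, w i) := by
  classical
  induction s using Finset.induction_on with
  | empty => simpa using Dec.zero
  | insert i s hi ih => rw [Finset.sum_insert hi]; exact (h i).add ih

theorem I_add {w w' : R} (h : Dec w) (h' : Dec w') : I (w + w') = I w + I w' :=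
  integral_add h.int1 h'.int1

theorem I_neg (w : R) : I (-w) = -I w := integral_neg _

theorem I_sub {w w' : R} (h : Dec w) (h' : Dec w') : I (w - w') = I w - I w' :=
  integral_sub h.int1 h'.int1

theorem I_smul (c : ℝ) (w : R) : I (c • w) = c * I w := integral_const_mul c w.1

theorem I_zero : I 0 = 0 := integral_zero _ _

theorem I_sum {ι : Type} (s : Finset ι) {w : ι → R} (h : ∀ i, Dec (w i)) :
    I (∑ i ∈ s, w i) = ∑ i ∈ s, I (w i) := by
  classical
  induction s using Finset.induction_on with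
  | empty => simpa using I_zero
  | insert i s hi ih => rw [Finset.sum_insert hi, Finset.sum_insert hi, I_add (h i) (Dec.sum s h), ih]

theorem ibp {w : R} (h : Dec w) (g : R) (j : Fin 3) : I (w * d j g) = -I (d j w * g) := by
  have := haar
  exact integral_mul_fderiv_eq_neg_fderiv_mul_of_integrable (μ := volume) (f := w.1) (g := g.1)
    (v := e j) ((h.d j).int g) (h.int (d j g)) (h.int g) (fun x _ => dif (sm w) x)
    (fun x _ => dif (sm g) x)

theorem ibp_dh {w : R} (h : Dec w) (g : R) (j : Fin 3) :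
    I (w * dh j g) = -I (gg j * d j w * g) := by
  have := ibp h (gg j * g) j
  rw [show gg j * d j w * g = d j w * (gg j * g) by ring, ← this]
  rfl

/-! ### The weight -/

section wt
variable {ψ : X3 → ℝ}

theorem lw_t {W : X3 → ℝ} (h : LW W) (i : Fin 3) :
    ∃ t : R, BF (fun _ : Unit => t) ∧ pd i W = fun z => t.1 z * W z := by
  obtain ⟨t, ht, he⟩ := h.der i
  exact ⟨⟨t, ub_tg ht ()⟩, ub_bf ht, he⟩

theorem pdl_w {W : X3 → ℝ} (h : LW W) (α : List (Fin 3)) (c : R) :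
    ∃ c' : R, pdl α (fun z => c.1 z * W z) = fun z => c'.1 z * W z := by
  induction α generalizing c with
  | nil => exact ⟨c, rfl⟩
  | cons j α ih =>
    obtain ⟨t, -, he⟩ := lw_t h j
    obtain ⟨c', hc'⟩ := ih (d j c + c * t)
    refine ⟨c', ?_⟩
    rw [← hc']
    simp only [pdl]
    rw [pd_mul j (sm c) h.sm, he]
    congr 1
    funext z
    show pd j c.1 z * W z + c.1 z * (t.1 z * W z) = (pd j c.1 z + c.1 z * t.1 z) * W z
    ring

theorem tg_wt (h : Wt ψ) : TG ψ := by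
  refine ⟨h.lw.sm, fun α => ?_⟩
  obtain ⟨c, hc⟩ := pdl_w h.lw α 1
  obtain ⟨C, n, hC⟩ := c.2.2 []
  obtain ⟨B, hB⟩ := h.dec 0
  refine ⟨C * B, n, fun z => ?_⟩
  have e : ψ = fun z => (1 : R).1 z * ψ z := by funext z; exact (one_mul _).symm
  rw [e, hc, abs_mul, abs_of_pos (h.lw.pos z)]
  have := mul_le_mul (hC z) (by simpa using hB z : ψ z ≤ B) (h.lw.pos z).le
    ((abs_nonneg _).trans (hC z))
  exact this.trans (le_of_eq (by ring))

/-- the weight as an element of the ring -/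
def ps (h : Wt ψ) : R := ⟨ψ, tg_wt h⟩

theorem d_ps (h : Wt ψ) (i : Fin 3) : ∃ t : R, BF (fun _ : Unit => t) ∧ d i (ps h) = t * ps h := by
  obtain ⟨t, ht, he⟩ := lw_t h.lw i
  exact ⟨t, ht, Subtype.ext he⟩

theorem int_ps (h : Wt ψ) (g : R) : Integrable (ps h * g).1 := by
  have := haar
  obtain ⟨C, n, hC⟩ := g.2.2 []
  obtain ⟨B, hB⟩ := h.dec (n + 2)
  have hi := integrable_rpow_neg_one_add_norm_sq (E := X3) (μ := volume) (r := 4)
    (by simp [Module.finrank_prod]; norm_num)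
  refine (hi.const_mul (|C| * B)).mono' (cont _).aestronglyMeasurable (.of_forall fun z => ?_)
  have k0 : (0 : ℝ) < 1 + ‖z‖ ^ 2 := by positivity
  have k1 : ((1 : ℝ) + ‖z‖ ^ 2) ^ (-4 / 2 : ℝ) = ((1 + ‖z‖ ^ 2) ^ 2)⁻¹ := by
    rw [show (-4 / 2 : ℝ) = -((2 : ℕ) : ℝ) by norm_num, Real.rpow_neg k0.le, Real.rpow_natCast]
  rw [k1, ← div_eq_mul_inv, le_div_iff₀ (by positivity)]
  show ‖ψ z * g.1 z‖ * _ ≤ _
  rw [Real.norm_eq_abs, abs_mul, abs_of_pos (h.lw.pos z)]
  have k2 : |g.1 z| ≤ |C| * (1 + ‖z‖ ^ 2) ^ n :=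
    (hC z).trans (mul_le_mul_of_nonneg_right (le_abs_self _) (by positivity))
  have k3 := mul_le_mul_of_nonneg_left (hB z) (abs_nonneg C)
  have k4 := mul_le_mul_of_nonneg_left k2
    (mul_nonneg (h.lw.pos z).le (by positivity : (0 : ℝ) ≤ (1 + ‖z‖ ^ 2) ^ 2))
  rw [pow_add] at k3
  nlinarith

theorem dec_ps (h : Wt ψ) : Dec (ps h) := fun α g => by
  obtain ⟨c, hc⟩ := pdl_w h.lw α 1
  have : dw α (ps h) = c * ps h := by
    apply Subtype.ext
    rw [dw_val]
    have e : (ps h).1 = fun z => (1 : R).1 z * ψ z := by funext z; exact (one_mul _).symm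
    rw [e, hc]; rfl
  rw [this, show c * ps h * g = ps h * (c * g) by ring]
  exact int_ps h _

theorem l2_ps (h : Wt ψ) (g : R) : L2 (fun z => ψ z * g.1 z) (qq ψ g) := by
  refine ⟨h.lw.sm.continuous.mul (cont g), ?_, qq_nonneg _ _, (qq_sq ψ g).ge⟩
  have := int_ps h (ps h * g * g)
  refine this.congr (.of_forall fun z => ?_)
  show ψ z * (ψ z * g.1 z * g.1 z) = _
  ring

theorem sw_ps (h : Wt ψ) (y : R) :
    (fun z => sw ψ z * (ps h * ps h * y).1 z) = fun z => ψ z * y.1 z := by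
  funext z
  show (ψ z)⁻¹ * (ψ z * ψ z * y.1 z) = _
  field_simp [(h.lw.pos z).ne']

theorem pair_le (h : Wt ψ) {v : R} {a : ℝ} (hv : L2 (fun z => sw ψ z * v.1 z) a) (g : R) :
    Integrable (v * g).1 ∧ |I (v * g)| ≤ a * qq ψ g := by
  have e : (v * g).1 = fun z => (sw ψ z * v.1 z) * (ψ z * g.1 z) := by
    funext z
    show v.1 z * g.1 z = (ψ z)⁻¹ * v.1 z * (ψ z * g.1 z)
    field_simp [(h.lw.pos z).ne']
  unfold I
  rw [e]
  exact ⟨l2_int hv (l2_ps h g), l2_cs hv (l2_ps h g)⟩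

/-- all strong norms are finite -/
def Fs (ψ : X3 → ℝ) (v : R) : Prop := ∀ α, ∃ c, L2 (fun z => sw ψ z * (dw α v).1 z) c

theorem Fs.d {v : R} (h : Fs ψ v) (j : Fin 3) : Fs ψ (d j v) := fun α => h (j :: α)

theorem Fs.dw {v : R} (h : Fs ψ v) (β : List (Fin 3)) : Fs ψ (dw β v) := fun α => by
  have := h (β ++ α)
  rwa [show P354S.dw (β ++ α) v = P354S.dw α (P354S.dw β v) from wd_append _ _ _ _] at this

theorem Fs.l2 {v : R} (h : Fs ψ v) : L2 (fun z => sw ψ z * v.1 z) (qq (sw ψ) v) :=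
  (h []).elim fun _ hc => l2_qq hc

theorem Fs.dec (h : Wt ψ) {v : R} (hv : Fs ψ v) : Dec v := fun α g =>
  (hv α).elim fun _ hc => (pair_le h hc g).1

theorem dw_ps (h : Wt ψ) (α : List (Fin 3)) (y : R) :
    ∃ y', dw α (ps h * ps h * y) = ps h * ps h * y' := by
  induction α generalizing y with
  | nil => exact ⟨y, rfl⟩
  | cons j α ih =>
    obtain ⟨t, -, ht⟩ := d_ps h j
    obtain ⟨y', hy⟩ := ih (d j y + (t + t) * y)
    refine ⟨y', ?_⟩
    rw [← hy, dw_cons, d_mul, d_mul, ht]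
    congr 1
    ring

theorem fs_ps (h : Wt ψ) (y : R) : Fs ψ (ps h * ps h * y) := fun α => by
  obtain ⟨y', hy⟩ := dw_ps h α y
  rw [hy, sw_ps]
  exact ⟨_, l2_ps h y'⟩

theorem qq_ps (h : Wt ψ) (y : R) : qq (sw ψ) (ps h * ps h * y) = qq ψ y := by
  have := sw_ps h y
  unfold qq
  congr 2
  funext z
  rw [congrFun this z]

theorem I_sq (h : Wt ψ) (y : R) : I (ps h * ps h * y * y) = qq ψ y ^ 2 := by
  rw [qq_sq]
  refine integral_congr_ae (.of_forall fun z => ?_)
  show ψ z * ψ z * y.1 z * y.1 z = _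
  ring

theorem lw_sw (h : Wt ψ) : LW (sw ψ) := by
  refine ⟨fun z => inv_pos.2 (h.lw.pos z), h.lw.sm.inv fun z => (h.lw.pos z).ne', fun i => ?_⟩
  obtain ⟨t, ht, he⟩ := h.lw.der i
  refine ⟨fun z => -t z, ⟨fun _ => (ht.1 ()).neg, fun k => (ht.2 k).imp fun C hC r => (hC r).neg⟩, ?_⟩
  show pd i (fun z => (ψ z)⁻¹) = _
  rw [pd_inv i h.lw.sm fun z => (h.lw.pos z).ne', he]
  funext z
  show -(t z * ψ z) * ((ψ z)⁻¹ * (ψ z)⁻¹) = -t z * (ψ z)⁻¹
  field_simp [(h.lw.pos z).ne']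

theorem tg_of_l2 (hs : SOBW) (h : Wt ψ) {g : X3 → ℝ} (hg : Fw (sw ψ) g) : TG g := by
  obtain ⟨C, -, hC⟩ := hs _ (lw_sw h)
  obtain ⟨B, hB⟩ := h.dec 0
  obtain ⟨c0, h0⟩ := hg 0
  refine tg_of_bdd h0.1 fun α => ?_
  obtain ⟨c, hc⟩ := hg (α.length + 3)
  refine ⟨C * c * B, fun z => ?_⟩
  have k := hC _ g c hc α le_rfl z
  have k2 : ψ z ≤ B := by simpa using hB z
  have k3 : |pdl α g z| = sw ψ z * |pdl α g z| * ψ z := by
    show _ = (ψ z)⁻¹ * _ * _
    field_simp [(h.lw.pos z).ne']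
  rw [k3]
  exact mul_le_mul k k2 (h.lw.pos z).le
    ((mul_nonneg (inv_pos.2 (h.lw.pos z)).le (abs_nonneg _)).trans k)

end wt

end Vale.Agent.P354S
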