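import Vale.Agent.P354S.Int

/-!
Second order operators and their commutators with words of derivatives.
-/

open scoped ContDiff
open MeasureTheory Set Filter Topology

namespace Vale.Agent.P354S

open Vale.Agent.P354H (X3 e pd pdl Sb pd_sm pdl_sm dif haar)
open Vale.Agent.P354K

theorem dhw_add (β : List (Fin 3)) (f g : R) : dhw β (f + g) = dhw β f + dhw β g := by
  induction β generalizing f g with
  | nil => rfl
  | cons j β ih => show dhw β (dh j (f + g)) = _; rw [map_add, ih]; rfl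

theorem dhw_smul (β : List (Fin 3)) (c : ℝ) (f : R) : dhw β (c • f) = c • dhw β f := by
  induction β generalizing f with
  | nil => rfl
  | cons j β ih => show dhw β (dh j (c • f)) = _; rw [map_smul, ih]; rfl

theorem dhw_neg (β : List (Fin 3)) (f : R) : dhw β (-f) = -dhw β f := by
  simpa using dhw_smul β (-1) f

variable {P ι κ : Type}

/-- derivatives of vector fields -/
noncomputable def dU (a : Fin 3) (U : κ → R) : κ → R := fun k => d a (U k)
noncomputable def dUw (w : List (Fin 3)) (U : κ → R) : κ → R := wd dU w U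

theorem dUw_apply (w : List (Fin 3)) (U : κ → R) (k : κ) : dUw w U k = dw w (U k) := by
  induction w generalizing U with
  | nil => rfl
  | cons a w ih => exact ih (dU a U)

/-- words of adjoints -/
noncomputable def tau : List (Fin 3) → (κ → R) → κ → R
  | [], V => V
  | a :: w, V => -dU a (tau w V)

/-- the norm of test fields -/
noncomputable def st [Fintype κ] (ψ : X3 → ℝ) (U : κ → R) : ℝ :=
  ∑ k, nl (fun j => dh j) (qq ψ) 3 (U k)

theorem st_nonneg [Fintype κ] (ψ : X3 → ℝ) (U : κ → R) : 0 ≤ st ψ U :=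
  Finset.sum_nonneg fun _ _ => nl_nonneg (qq_nonneg ψ) _ _

theorem le_st [Fintype κ] (ψ : X3 → ℝ) (U : κ → R) (k : κ) {β : List (Fin 3)}
    (h : β.length ≤ 2) : qq ψ (dhw β (U k)) ≤ st ψ U :=
  (le_nl' (qq_nonneg ψ) (Nat.lt_succ_of_le h) _).trans
    (Finset.single_le_sum (f := fun k => nl (fun j => dh j) (qq ψ) 3 (U k))
      (fun _ _ => nl_nonneg (qq_nonneg ψ) _ _) (Finset.mem_univ k))

/-- operators of order at most two with a common factor m -/
inductive Opr (m : R) : (P × (κ → R) → R) → Prop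
  | base (c : P → R) (hc : BF c) (k : κ) (β : List (Fin 3)) (hβ : β.length ≤ 2) :
      Opr m fun u => m * (c u.1 * dhw β (u.2 k))
  | zero : Opr m fun _ => 0
  | add {A B} : Opr m A → Opr m B → Opr m fun u => A u + B u

theorem Opr.congr {m : R} {A B : P × (κ → R) → R} (h : Opr m A) (e : ∀ u, B u = A u) :
    Opr m B := by rw [funext e]; exact h

theorem Opr.sum {m : R} {α : Type} (s : Finset α) {A : α → P × (κ → R) → R}
    (h : ∀ x, Opr m (A x)) : Opr m fun u => ∑ x ∈ s, A x u := by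
  classical
  induction s using Finset.induction_on with
  | empty => exact Opr.zero.congr fun u => by simp
  | insert i s hi ih => exact ((h i).add ih).congr fun u => Finset.sum_insert hi

theorem Opr.neg {m : R} {A : P × (κ → R) → R} (h : Opr m A) (r : P) (U : κ → R) :
    A (r, -U) = -A (r, U) := by
  induction h with
  | base c hc k β hβ => simp only [Pi.neg_apply, dhw_neg]; ring
  | zero => simp
  | add _ _ a b => simp only [a, b]; ring

theorem BF.re {c : R} (h : BF fun _ : Unit => c) : BF fun _ : P => c := fun α =>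
  (h α).imp fun _ hC _ z => hC () z

theorem Opr.ad {m : R} (hm : ∀ a, ∃ t : R, BF (fun _ : Unit => t) ∧ d a m = t * m)
    {A : P × (κ → R) → R} (h : Opr m A) (a : Fin 3) :
    ∃ A', Opr m A' ∧ ∀ u, d a (A u) = A (u.1, dU a u.2) + A' u := by
  induction h with
  | zero => exact ⟨_, .zero, fun u => by simp⟩
  | add _ _ h1 h2 =>
    obtain ⟨A', h1, e1⟩ := h1
    obtain ⟨B', h2, e2⟩ := h2
    exact ⟨_, h1.add h2, fun u => by rw [map_add, e1, e2]; ring⟩
  | base c hc k β hβ =>
    obtain ⟨t, ht, et⟩ := hm a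
    have h0 := Opr.base (m := m) _ ((ht.re.mul hc).add (hc.d a)) k β hβ
    match β, hβ with
    | [], _ =>
      refine ⟨_, h0, fun u => ?_⟩
      simp only [d_mul, et, dhw, wd, dU]
      ring
    | [j], _ =>
      refine ⟨_, (h0.add (.base _ (hc.mul ((BF.kr j a).mul (bf_al j))) k [j] (by simp))).add
        (.base _ (hc.mul ((BF.kr j a).mul ((bf_ig j).sub BF.one))) k [] (by simp)), fun u => ?_⟩
      simp only [d_mul, et, dhw, wd, dU, d_dh]
      ring
    | [j, l], _ =>
      have b1 := (BF.kr (P := P) j a).mul (bf_al j)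
      have b2 := (BF.kr (P := P) j a).mul ((bf_ig j).sub BF.one)
      have b3 := (BF.kr (P := P) l a).mul (bf_al l)
      have b4 := (BF.kr (P := P) l a).mul ((bf_ig l).sub BF.one)
      refine ⟨_, (((h0.add (.base _ (hc.mul (b1.add b3)) k [j, l] (by simp))).add
        (.base _ (hc.mul (b4.add (b2.mul (BF.kr j l)))) k [j] (by simp))).add
        (.base _ (hc.mul b2) k [l] (by simp))).add
        (.base _ (hc.mul (b1.mul (BF.kr j l)).neg) k [] (by simp)), fun u => ?_⟩
      have g1 := gd_al l j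
      rw [d_mul] at g1
      simp only [d_mul, et, dhw, wd, dU, d_dh, map_add, mul_assoc (kr j a), dh_mul, d_kr, gd_ga]
      linear_combination (m * c u.1 * kr j a * dh j (u.2 k)) * g1

theorem Opr.bound [Fintype κ] {ψ W : X3 → ℝ} (h : Wt ψ) {m : R}
    (hm : ∀ y : R, (fun z => W z * (m * y).1 z) = fun z => ψ z * y.1 z)
    {A : P × (κ → R) → R} (hA : Opr m A) :
    ∃ C, 0 ≤ C ∧ ∀ u, L2 (fun z => W z * (A u).1 z) (C * st ψ u.2) := by
  induction hA with
  | zero => exact ⟨0, le_rfl, fun u => by simpa using l2_zero⟩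
  | add _ _ h1 h2 =>
    obtain ⟨C, hC, h1⟩ := h1
    obtain ⟨C', hC', h2⟩ := h2
    refine ⟨C + C', by positivity, fun u => ?_⟩
    have := l2_add (h1 u) (h2 u)
    rw [← add_mul] at this
    simpa [mul_add] using this
  | base c hc k β hβ =>
    obtain ⟨C, hC, hb⟩ := hc.bdd
    refine ⟨C, hC, fun u => ?_⟩
    rw [hm]
    refine l2_le (l2_mono (l2_ps h (dhw β (u.2 k))) (l2_ps h _).1 hC fun z => ?_)
      (mul_le_mul_of_nonneg_left (le_st ψ u.2 k hβ) hC)
    show |ψ z * ((c u.1).1 z * (dhw β (u.2 k)).1 z)| ≤ _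
    rw [mul_left_comm, abs_mul]
    exact mul_le_mul_of_nonneg_right (hb _ z) (abs_nonneg _)

theorem hm_one (ψ : X3 → ℝ) (y : R) : (fun z => ψ z * ((1 : R) * y).1 z) = fun z => ψ z * y.1 z := by
  rw [one_mul]

theorem ht_one (a : Fin 3) : ∃ t : R, BF (fun _ : Unit => t) ∧ d a (1 : R) = t * 1 :=
  ⟨0, BF.zero, by rw [d_one, zero_mul]⟩

theorem ht_ps {ψ : X3 → ℝ} (h : Wt ψ) (a : Fin 3) :
    ∃ t : R, BF (fun _ : Unit => t) ∧ d a (ps h * ps h) = t * (ps h * ps h) := by
  obtain ⟨t, ht, e⟩ := d_ps h a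
  exact ⟨t + t, ht.add ht, by rw [d_mul, e]; ring⟩

theorem opr_tau (k : κ) {w : List (Fin 3)} (hw : w.length ≤ 2) :
    Opr 1 fun u : Unit × (κ → R) => tau w u.2 k := by
  have h1 : ∀ j, Opr 1 fun u : Unit × (κ → R) => d j (u.2 k) := fun j =>
    ((Opr.base _ (bf_ig j) k [j] (by simp)).add (.base _ (bf_al j).neg k [] (by simp))).congr
      fun u => by simp only [dhw, wd]; rw [d_eq_dh]; ring
  match w, hw with
  | [], _ => exact (Opr.base _ BF.one k [] (by simp)).congr fun u => by simp [tau, dhw, wd]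
  | [j], _ =>
    exact ((Opr.base _ (bf_ig j).neg k [j] (by simp)).add
      (.base _ (bf_al j) k [] (by simp))).congr
      fun u => by simp only [dhw, wd, tau, Pi.neg_apply, dU]; rw [d_eq_dh]; ring
  | [j, l], _ =>
    refine (((((Opr.base _ ((bf_ig j).mul (bf_ig l)) k [l, j] (by simp)).add
      (.base _ ((bf_al j).mul (bf_ig l)).neg k [l] (by simp))).add
      (.base _ ((bf_ig l).d j) k [l] (by simp))).add
      (.base _ ((bf_al l).mul (bf_ig j)).neg k [j] (by simp))).add
      (.base _ (((bf_al l).mul (bf_al j)).sub ((bf_al l).d j)) k [] (by simp))).congr fun u => ?_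
    simp only [dhw, wd, tau, Pi.neg_apply, dU, map_neg, neg_neg]
    rw [d_eq_dh l (u.2 k), map_sub, d_mul, d_mul (f := zz l * ig l), d_eq_dh j (dh l (u.2 k)),
      d_eq_dh j (u.2 k)]
    ring

theorem tau_le [Fintype κ] {ψ : X3 → ℝ} (h : Wt ψ) : ∃ C, 0 ≤ C ∧ ∀ w : List (Fin 3),
    w.length ≤ 2 → ∀ (V : κ → R) k, qq ψ (tau w V k) ≤ C * st ψ V := by
  obtain ⟨C, hC, H⟩ := unif (Φ := fun w C => w.length ≤ 2 → ∀ (V : κ → R) k,
      qq ψ (tau w V k) ≤ C * st ψ V) (fun w a b H hab hw V k =>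
      (H hw V k).trans (mul_le_mul_of_nonneg_right hab (st_nonneg _ _))) (fun w => by
    by_cases hw : w.length ≤ 2
    · obtain ⟨C, -, H⟩ := unif_fin (Φ := fun k C => ∀ V : κ → R, qq ψ (tau w V k) ≤ C * st ψ V)
        (fun k a b H hab V => (H V).trans (mul_le_mul_of_nonneg_right hab (st_nonneg _ _)))
        fun k => ((opr_tau k hw).bound h (hm_one ψ)).imp fun C H V => qq_le (H.2 ((), V))
      exact ⟨C, fun _ V k => H k V⟩
    · exact ⟨0, fun h' => absurd h' hw⟩) 2
  exact ⟨C, hC, fun w hw => H w hw hw⟩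

theorem wd_snd {M : Type} (Z : Fin 3 → M → M) (w : List (Fin 3)) (r : P) (u : M) :
    wd (fun a (x : P × M) => (x.1, Z a x.2)) w (r, u) = (r, wd Z w u) := by
  induction w generalizing u with
  | nil => rfl
  | cons a w ih => exact ih _

theorem nl_snd {M : Type} (Z : Fin 3 → M → M) (p : M → ℝ) (n : ℕ) (r : P) (u : M) :
    nl (fun a (x : P × M) => (x.1, Z a x.2)) (fun x => p x.2) n (r, u) = nl Z p n u := by
  induction n generalizing u with
  | zero => rfl
  | succ n ih => simp only [nl, ih]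

theorem comm1 [Fintype κ] {ψ : X3 → ℝ} (h : Wt ψ) {A : P × (κ → R) → R}
    (hA : Opr (ps h * ps h) A) (w : List (Fin 3)) : ∃ C, 0 ≤ C ∧ ∀ r U,
      L2 (fun z => sw ψ z * (dw w (A (r, U)) - A (r, dUw w U)).1 z)
        (C * nl dU (st ψ) w.length U) := by
  obtain ⟨C, hC, H⟩ := comm (fun a (x : P × (κ → R)) => (x.1, dU a x.2))
    (fun a => (d a).toAddMonoidHom) (fun x => st ψ x.2) (fun x => st_nonneg _ _)
    (fun g c => L2 (fun z => sw ψ z * g.1 z) c) (by simpa using l2_zero)
    (fun x y a b hx hy => by simpa [mul_add] using l2_add hx hy) (fun x a b => l2_le)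
    (Opr (ps h * ps h)) (fun A hA a => hA.ad (ht_ps h) a) (fun A hA => hA.bound h (sw_ps h)) w A hA
  refine ⟨C, hC, fun r U => ?_⟩
  have := H (r, U)
  rw [wd_snd, nl_snd] at this
  exact this

/-- fields with finite strong norms -/
abbrev FV (ψ : X3 → ℝ) (ι : Type) : Type := {v : ι → R // ∀ i, Fs ψ (v i)}

noncomputable def dV {ψ : X3 → ℝ} (a : Fin 3) (v : FV ψ ι) : FV ψ ι :=
  ⟨dU a v.1, fun i => (v.2 i).d a⟩

theorem wd_dV {ψ : X3 → ℝ} (w : List (Fin 3)) (v : FV ψ ι) : (wd dV w v).1 = dUw w v.1 := by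
  induction w generalizing v with
  | nil => rfl
  | cons a w ih => exact ih _

/-- bilinear forms -/
inductive Frm (ψ : X3 → ℝ) : (P × FV ψ ι → (κ → R) → ℝ) → Prop
  | base (i : ι) {A : P × (κ → R) → R} (hA : Opr 1 A) :
      Frm ψ fun u V => I (u.2.1 i * A (u.1, V))
  | zero : Frm ψ fun _ _ => 0
  | add {A B} : Frm ψ A → Frm ψ B → Frm ψ fun u V => A u V + B u V

theorem Frm.sum {ψ : X3 → ℝ} {α : Type} (s : Finset α) {A : α → P × FV ψ ι → (κ → R) → ℝ}
    (h : ∀ x, Frm ψ (A x)) : Frm ψ fun u V => ∑ x ∈ s, A x u V := by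
  classical
  induction s using Finset.induction_on with
  | empty => simpa using Frm.zero
  | insert i s hi ih => simpa [Finset.sum_insert hi] using (h i).add ih

/-- the action on forms -/
noncomputable def zd (a : Fin 3) : ((κ → R) → ℝ) →+ ((κ → R) → ℝ) where
  toFun l V := l (-dU a V)
  map_zero' := rfl
  map_add' _ _ := rfl

theorem wd_zd (w : List (Fin 3)) (l : (κ → R) → ℝ) (V : κ → R) :
    wd (fun a => zd a) w l V = l (tau w V) := by
  induction w generalizing l with
  | nil => rfl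
  | cons a w ih => exact ih _

theorem comm2 [Fintype ι] [Fintype κ] {ψ : X3 → ℝ} (h : Wt ψ)
    {B : P × FV ψ ι → (κ → R) → ℝ} (hB : Frm ψ B) (w : List (Fin 3)) :
    ∃ C, 0 ≤ C ∧ ∀ r (v : FV ψ ι) V, |B (r, v) (tau w V) - B (r, wd dV w v) V| ≤
      C * nl dV (fun v => ∑ i, qq (sw ψ) (v.1 i)) w.length v * st ψ V := by
  have hp : ∀ v : FV ψ ι, 0 ≤ ∑ i, qq (sw ψ) (v.1 i) := fun v =>
    Finset.sum_nonneg fun _ _ => qq_nonneg _ _
  obtain ⟨C, hC, H⟩ := comm (fun a (x : P × FV ψ ι) => (x.1, dV a x.2)) zd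
    (fun x => ∑ i, qq (sw ψ) (x.2.1 i)) (fun x => hp _)
    (fun l c => ∀ V, |l V| ≤ c * st ψ V) (fun V => by simp)
    (fun x y a b hx hy V => (abs_add_le _ _).trans (by rw [add_mul]; exact add_le_add (hx V) (hy V)))
    (fun x a b hx hab V => (hx V).trans (mul_le_mul_of_nonneg_right hab (st_nonneg _ _)))
    (Frm ψ) (fun A hA a => by
      induction hA with
      | zero => exact ⟨_, .zero, fun u => by funext V; simp [zd]⟩
      | add _ _ h1 h2 =>
        obtain ⟨A', h1, e1⟩ := h1
        obtain ⟨B', h2, e2⟩ := h2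
        refine ⟨_, h1.add h2, fun u => ?_⟩
        funext V
        have k1 := congrFun (e1 u) V
        have k2 := congrFun (e2 u) V
        simp only [zd, AddMonoidHom.coe_mk, ZeroHom.coe_mk, Pi.add_apply] at k1 k2 ⊢
        linarith
      | @base i A hA =>
        obtain ⟨A', hA', e⟩ := hA.ad ht_one a
        refine ⟨_, .base i hA', fun u => ?_⟩
        funext V
        have hd := (u.2.2 i).dec h
        have k := ibp hd (A (u.1, V)) a
        rw [e, mul_add, I_add (hd.mul' _) (hd.mul' _)] at k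
        show I (u.2.1 i * A (u.1, -dU a V)) = I (d a (u.2.1 i) * A (u.1, V)) + _
        rw [hA.neg, show ∀ x y : R, x * -y = -(x * y) from fun x y => by ring, I_neg]
        linarith) (fun A hA => by
      induction hA with
      | zero => exact ⟨0, le_rfl, fun u V => by simp⟩
      | add _ _ h1 h2 =>
        obtain ⟨C, hC, h1⟩ := h1
        obtain ⟨C', hC', h2⟩ := h2
        refine ⟨C + C', by positivity, fun u V => (abs_add_le _ _).trans ?_⟩
        rw [add_mul, add_mul]
        exact add_le_add (h1 u V) (h2 u V)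
      | @base i A hA =>
        obtain ⟨C, hC, hb⟩ := hA.bound h (hm_one ψ)
        refine ⟨C, hC, fun u V => (pair_le h (u.2.2 i).l2 _).2.trans ?_⟩
        have k1 := qq_le (hb (u.1, V))
        have k2 := Finset.single_le_sum (f := fun i => qq (sw ψ) (u.2.1 i))
          (fun _ _ => qq_nonneg _ _) (Finset.mem_univ i)
        exact (mul_le_mul k2 k1 (qq_nonneg _ _) (hp _)).trans (le_of_eq (by ring))) w B hB
  refine ⟨C, hC, fun r v V => ?_⟩
  have := H (r, v) V
  rw [wd_snd, nl_snd (p := fun v : FV ψ ι => ∑ i, qq (sw ψ) (v.1 i)), Pi.sub_apply, wd_zd] at this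
  exact this

end Vale.Agent.P354S
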