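import Vale.Agent.P354K.Calc
import Vale.Agent.P354H.L2
import Vale.Agent.P354S.Abs

/-!
The differential ring of smooth functions of polynomial growth, bounded families, rapidly
decaying functions, L2 norms.
-/

open scoped ContDiff
open MeasureTheory Set Filter Topology

namespace Vale.Agent.P354S

open Vale.Agent.P354H (X3 e pd pdl Sb pd_sm pdl_sm dif)
open Vale.Agent.P354K

/-- smooth of polynomial growth -/
def TG (g : X3 → ℝ) : Prop :=
  Sm g ∧ ∀ α, ∃ (C : ℝ) (n : ℕ), ∀ z, |pdl α g z| ≤ C * (1 + ‖z‖ ^ 2) ^ n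

theorem one_le_br (z : X3) (n : ℕ) : (1 : ℝ) ≤ (1 + ‖z‖ ^ 2) ^ n :=
  one_le_pow₀ (by nlinarith [sq_nonneg ‖z‖])

theorem TG.pd {g : X3 → ℝ} (h : TG g) (j : Fin 3) : TG (pd j g) :=
  ⟨pd_sm j h.1, fun α => h.2 (j :: α)⟩

theorem pg_add {f g : X3 → ℝ} (hf : ∃ (C : ℝ) (n : ℕ), ∀ z, |f z| ≤ C * (1 + ‖z‖ ^ 2) ^ n)
    (hg : ∃ (C : ℝ) (n : ℕ), ∀ z, |g z| ≤ C * (1 + ‖z‖ ^ 2) ^ n) :
    ∃ (C : ℝ) (n : ℕ), ∀ z, |f z + g z| ≤ C * (1 + ‖z‖ ^ 2) ^ n := by
  obtain ⟨C, n, h⟩ := hf
  obtain ⟨C', n', h'⟩ := hg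
  refine ⟨|C| + |C'|, n + n', fun z => (abs_add_le _ _).trans ?_⟩
  have k1 := one_le_br z n
  have k2 := one_le_br z n'
  have a1 : |f z| ≤ |C| * (1 + ‖z‖ ^ 2) ^ n :=
    (h z).trans (mul_le_mul_of_nonneg_right (le_abs_self _) (by linarith))
  have a2 : |g z| ≤ |C'| * (1 + ‖z‖ ^ 2) ^ n' :=
    (h' z).trans (mul_le_mul_of_nonneg_right (le_abs_self _) (by linarith))
  have b1 : |C| * (1 + ‖z‖ ^ 2) ^ n ≤ |C| * ((1 + ‖z‖ ^ 2) ^ n * (1 + ‖z‖ ^ 2) ^ n') :=
    mul_le_mul_of_nonneg_left (le_mul_of_one_le_right (by linarith) k2) (abs_nonneg _)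
  have b2 : |C'| * (1 + ‖z‖ ^ 2) ^ n' ≤ |C'| * ((1 + ‖z‖ ^ 2) ^ n * (1 + ‖z‖ ^ 2) ^ n') :=
    mul_le_mul_of_nonneg_left (le_mul_of_one_le_left (by linarith) k1) (abs_nonneg _)
  rw [pow_add]
  linarith

theorem TG.add {f g : X3 → ℝ} (hf : TG f) (hg : TG g) : TG fun z => f z + g z :=
  ⟨hf.1.add hg.1, fun α => by
    rw [pdl_add' α hf.1 hg.1]; exact pg_add (hf.2 α) (hg.2 α)⟩

theorem TG.mul {f g : X3 → ℝ} (hf : TG f) (hg : TG g) : TG fun z => f z * g z := by
  refine ⟨hf.1.mul hg.1, fun α => ?_⟩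
  induction α generalizing f g with
  | nil =>
    obtain ⟨C, n, h⟩ := hf.2 []
    obtain ⟨C', n', h'⟩ := hg.2 []
    refine ⟨C * C', n + n', fun z => ?_⟩
    have := mul_le_mul (h z) (h' z) (abs_nonneg _) ((abs_nonneg _).trans (h z))
    show |f z * g z| ≤ _
    rw [abs_mul, pow_add]
    exact this.trans (le_of_eq (by ring))
  | cons j α ih =>
    simp only [pdl]
    rw [pd_mul j hf.1 hg.1, pdl_add' α ((hf.pd j).1.mul hg.1) (hf.1.mul (hg.pd j).1)]
    exact pg_add (ih (hf.pd j) hg) (ih hf (hg.pd j))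

theorem TG.const (c : ℝ) : TG fun _ => c := by
  refine ⟨contDiff_const, fun α => ?_⟩
  cases α with
  | nil => exact ⟨|c|, 0, fun z => by simp [pdl]⟩
  | cons j α => exact ⟨0, 0, fun z => by simp only [pdl]; rw [pd_const, pdl_zero']; simp⟩

theorem tg_of_bdd {g : X3 → ℝ} (hg : Sm g) (h : ∀ α, ∃ C, ∀ z, |pdl α g z| ≤ C) : TG g :=
  ⟨hg, fun α => (h α).imp fun C hC => ⟨0, fun z => by simpa using hC z⟩⟩

/-- The ring. -/
def R : Subalgebra ℝ (X3 → ℝ) where
  carrier := {g | TG g}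
  mul_mem' := TG.mul
  add_mem' := TG.add
  algebraMap_mem' := TG.const

theorem sm (g : R) : Sm g.1 := g.2.1
theorem cont (g : R) : Continuous g.1 := g.2.1.continuous

/-- The derivations. -/
noncomputable def d (j : Fin 3) : R →ₗ[ℝ] R where
  toFun g := ⟨pd j g.1, TG.pd g.2 j⟩
  map_add' f g := Subtype.ext (P354H.pd_add j (sm f) (sm g))
  map_smul' c f := Subtype.ext (P354H.pd_smul j c (sm f))

theorem d_mul (j : Fin 3) (f g : R) : d j (f * g) = d j f * g + f * d j g :=
  Subtype.ext (pd_mul j (sm f) (sm g))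

theorem d_one (j : Fin 3) : d j 1 = 0 := Subtype.ext (pd_const j 1)

theorem d_comm (i j : Fin 3) (f : R) : d i (d j f) = d j (d i f) :=
  Subtype.ext (pd_comm i j (sm f))

/-- words of derivatives -/
noncomputable def dw (α : List (Fin 3)) (g : R) : R := wd (fun j => d j) α g

theorem dw_val (α : List (Fin 3)) (g : R) : (dw α g).1 = pdl α g.1 := by
  induction α generalizing g with
  | nil => rfl
  | cons j α ih => exact ih (d j g)

theorem dw_cons (j : Fin 3) (α : List (Fin 3)) (g : R) : dw (j :: α) g = dw α (d j g) := rfl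

theorem dw_add (α : List (Fin 3)) (f g : R) : dw α (f + g) = dw α f + dw α g := by
  induction α generalizing f g with
  | nil => rfl
  | cons j α ih => rw [dw_cons, map_add, ih]; rfl

theorem dw_sub (α : List (Fin 3)) (f g : R) : dw α (f - g) = dw α f - dw α g := by
  induction α generalizing f g with
  | nil => rfl
  | cons j α ih => rw [dw_cons, map_sub, ih]; rfl

theorem dw_snoc (α : List (Fin 3)) (j : Fin 3) (g : R) : dw (α ++ [j]) g = d j (dw α g) :=
  wd_append _ _ _ _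

theorem tg_co (i : Fin 3) : TG (co i) := by
  refine ⟨co_sm i, fun α => ?_⟩
  cases α with
  | nil =>
    refine ⟨1, 1, fun z => (abs_co_le i z).trans ?_⟩
    nlinarith [sq_nonneg (‖z‖ - 1), norm_nonneg z]
  | cons j α => simp only [pdl]; rw [pd_co]; exact (TG.const _).2 α

/-- the coordinates, the factors g and the Kronecker symbol -/
noncomputable def zz (i : Fin 3) : R := ⟨co i, tg_co i⟩
noncomputable def gg (i : Fin 3) : R := (1 / 2 : ℝ) • (1 + zz i * zz i)
noncomputable def kr (i j : Fin 3) : R := if i = j then 1 else 0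

theorem gg_val (i : Fin 3) : (gg i).1 = gz i := by
  funext z
  show (1 / 2 : ℝ) * (1 + co i z * co i z) = (1 + co i z ^ 2) / 2
  ring

theorem d_zz (j i : Fin 3) : d j (zz i) = kr i j := by
  apply Subtype.ext
  show pd j (co i) = _
  rw [pd_co]
  unfold kr
  split_ifs <;> rfl

theorem d_gg (j i : Fin 3) : d j (gg i) = kr i j * zz i := by
  apply Subtype.ext
  show pd j (gg i).1 = _
  rw [gg_val, pd_gz]
  unfold kr
  split_ifs
  · rw [one_mul]; rfl
  · rw [zero_mul]; rfl

theorem d_kr (a i j : Fin 3) : d a (kr i j) = 0 := by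
  unfold kr
  split_ifs
  · exact d_one a
  · exact map_zero _

/-! ### Bounded families -/

/-- families with uniformly bounded derivatives -/
def BF {P : Type} (c : P → R) : Prop := ∀ α, ∃ C, ∀ r z, |(dw α (c r)).1 z| ≤ C

section
variable {P : Type}

theorem BF.d {c : P → R} (h : BF c) (j : Fin 3) : BF fun r => d j (c r) := fun α => h (j :: α)

theorem BF.add {c c' : P → R} (h : BF c) (h' : BF c') : BF fun r => c r + c' r := fun α => by
  obtain ⟨C, hC⟩ := h α
  obtain ⟨C', hC'⟩ := h' α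
  refine ⟨C + C', fun r z => ?_⟩
  rw [dw_add]
  exact (abs_add_le _ _).trans (add_le_add (hC r z) (hC' r z))

theorem BF.mul {c c' : P → R} (h : BF c) (h' : BF c') : BF fun r => c r * c' r := fun α => by
  induction α generalizing c c' with
  | nil =>
    obtain ⟨C, hC⟩ := h []
    obtain ⟨C', hC'⟩ := h' []
    refine ⟨C * C', fun r z => ?_⟩
    show |(c r).1 z * (c' r).1 z| ≤ _
    rw [abs_mul]
    exact mul_le_mul (hC r z) (hC' r z) (abs_nonneg _) ((abs_nonneg _).trans (hC r z))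
  | cons j α ih =>
    obtain ⟨C, hC⟩ := ih (h.d j) h'
    obtain ⟨C', hC'⟩ := ih h (h'.d j)
    refine ⟨C + C', fun r z => ?_⟩
    rw [dw_cons, d_mul, dw_add]
    exact (abs_add_le _ _).trans (add_le_add (hC r z) (hC' r z))

theorem BF.alg (a : ℝ) : BF fun _ : P => algebraMap ℝ R a := fun α => by
  cases α with
  | nil => exact ⟨|a|, fun _ _ => le_rfl⟩
  | cons j α =>
    refine ⟨0, fun _ z => ?_⟩
    rw [dw_val]
    show |pdl α (pd j fun _ => a) z| ≤ 0
    rw [pd_const, pdl_zero']; simp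

theorem BF.one : BF fun _ : P => (1 : R) := by simpa using BF.alg (P := P) 1
theorem BF.zero : BF fun _ : P => (0 : R) := by simpa using BF.alg (P := P) 0
theorem BF.neg {c : P → R} (h : BF c) : BF fun r => -c r := by
  have e : (fun r => -c r) = fun r => algebraMap ℝ R (-1) * c r := by
    funext r; rw [map_neg, map_one]; ring
  rw [e]
  exact (BF.alg (P := P) (-1)).mul h
theorem BF.sub {c c' : P → R} (h : BF c) (h' : BF c') : BF fun r => c r - c' r := by
  simpa [sub_eq_add_neg] using h.add h'.neg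
theorem BF.kr (i j : Fin 3) : BF fun _ : P => kr i j := by
  unfold P354S.kr
  split_ifs
  · exact BF.one
  · exact BF.zero

theorem BF.bdd {c : P → R} (h : BF c) : ∃ C, 0 ≤ C ∧ ∀ r z, |(c r).1 z| ≤ C := by
  obtain ⟨C, hC⟩ := h []
  exact ⟨max C 0, le_max_right _ _, fun r z => (hC r z).trans (le_max_left _ _)⟩

theorem ub_tg {c : P → X3 → ℝ} (h : UB c) (r : P) : TG (c r) :=
  tg_of_bdd (h.1 r) fun α => (h.2 α.length).imp fun _ hC z => hC r α le_rfl z

theorem ub_bf {c : P → X3 → ℝ} (h : UB c) : BF fun r => (⟨c r, ub_tg h r⟩ : R) := fun α =>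
  (h.2 α.length).imp fun _ hC r z => by rw [dw_val]; exact hC r α le_rfl z

end

/-- polynomials in 1 / g and z / g -/
inductive Ig (i : Fin 3) : (X3 → ℝ) → Prop
  | const (c : ℝ) : Ig i fun _ => c
  | ig : Ig i fun z => (gz i z)⁻¹
  | al : Ig i fun z => co i z * (gz i z)⁻¹
  | add {f g} : Ig i f → Ig i g → Ig i fun z => f z + g z
  | mul {f g} : Ig i f → Ig i g → Ig i fun z => f z * g z

theorem ig_sm (i : Fin 3) : Sm fun z => (gz i z)⁻¹ := (gz_sm i).inv fun z => (gz_pos i z).ne'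

theorem Ig.sm {i : Fin 3} {f : X3 → ℝ} (h : Ig i f) : Sm f := by
  induction h with
  | const c => exact contDiff_const
  | ig => exact ig_sm i
  | al => exact (co_sm i).mul (ig_sm i)
  | add _ _ a b => exact a.add b
  | mul _ _ a b => exact a.mul b

theorem Ig.bdd {i : Fin 3} {f : X3 → ℝ} (h : Ig i f) : ∃ C, ∀ z, |f z| ≤ C := by
  induction h with
  | const c => exact ⟨|c|, fun _ => le_rfl⟩
  | ig =>
    refine ⟨2, fun z => ?_⟩
    rw [abs_of_pos (inv_pos.2 (gz_pos i z)), inv_le_comm₀ (gz_pos i z) two_pos]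
    linarith [gz_ge i z]
  | al =>
    refine ⟨1, fun z => ?_⟩
    rw [abs_mul, abs_of_pos (inv_pos.2 (gz_pos i z)), mul_inv_le_iff₀ (gz_pos i z), one_mul]
    unfold gz
    nlinarith [sq_nonneg (|co i z| - 1), sq_abs (co i z)]
  | add _ _ a b =>
    obtain ⟨C, a⟩ := a
    obtain ⟨C', b⟩ := b
    exact ⟨C + C', fun z => (abs_add_le _ _).trans (add_le_add (a z) (b z))⟩
  | mul _ _ a b =>
    obtain ⟨C, a⟩ := a
    obtain ⟨C', b⟩ := b
    refine ⟨C * C', fun z => ?_⟩
    rw [abs_mul]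
    exact mul_le_mul (a z) (b z) (abs_nonneg _) ((abs_nonneg _).trans (a z))

theorem pd_ig (j i : Fin 3) : pd j (fun z => (gz i z)⁻¹) = fun z =>
    (if i = j then -1 else 0) * ((co i z * (gz i z)⁻¹) * (gz i z)⁻¹) := by
  rw [pd_inv j (gz_sm i) fun z => (gz_pos i z).ne', pd_gz]
  funext z
  split_ifs <;> ring

theorem Ig.pd {i : Fin 3} {f : X3 → ℝ} (h : Ig i f) (j : Fin 3) : Ig i (pd j f) := by
  induction h with
  | const c => rw [pd_const]; exact .const 0
  | ig => rw [pd_ig]; exact (Ig.const _).mul (Ig.al.mul .ig)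
  | al =>
    rw [pd_mul j (co_sm i) (ig_sm i), pd_ig, pd_co]
    have : (fun z => (if i = j then (1 : ℝ) else 0) * (gz i z)⁻¹ + co i z *
        ((if i = j then -1 else 0) * ((co i z * (gz i z)⁻¹) * (gz i z)⁻¹))) =
        fun z => (if i = j then (1 : ℝ) else 0) * (gz i z)⁻¹ +
        (if i = j then -1 else 0) * ((co i z * (gz i z)⁻¹) * (co i z * (gz i z)⁻¹)) := by
      funext z; ring
    rw [this]
    exact ((Ig.const _).mul .ig).add ((Ig.const _).mul (Ig.al.mul .al))
  | add hf hg a b => rw [pd_add' j hf.sm hg.sm]; exact a.add b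
  | mul hf hg a b => rw [pd_mul j hf.sm hg.sm]; exact (a.mul hg).add (hf.mul b)

theorem Ig.bd {i : Fin 3} {f : X3 → ℝ} (h : Ig i f) (α : List (Fin 3)) :
    ∃ C, ∀ z, |pdl α f z| ≤ C := by
  induction α generalizing f with
  | nil => exact h.bdd
  | cons j α ih => exact ih (h.pd j)

noncomputable def ig (i : Fin 3) : R := ⟨fun z => (gz i z)⁻¹, tg_of_bdd (ig_sm i) (Ig.ig (i := i)).bd⟩

theorem bf_ig {P : Type} (i : Fin 3) : BF fun _ : P => ig i := fun α =>
  ((Ig.ig (i := i)).bd α).imp fun _ h _ z => by rw [dw_val]; exact h z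

theorem bf_al {P : Type} (i : Fin 3) : BF fun _ : P => zz i * ig i := fun α =>
  ((Ig.al (i := i)).bd α).imp fun _ h _ z => by rw [dw_val]; exact h z

theorem gg_ig (i : Fin 3) : gg i * ig i = 1 := by
  apply Subtype.ext
  funext z
  show (gg i).1 z * (gz i z)⁻¹ = 1
  rw [gg_val, mul_inv_cancel₀ (gz_pos i z).ne']

theorem zz_sq (i : Fin 3) : zz i * zz i = gg i + gg i - 1 := by
  apply Subtype.ext
  funext z
  show co i z * co i z = (gg i).1 z + (gg i).1 z - 1
  rw [gg_val]; unfold gz; ring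

theorem d_ig (j i : Fin 3) : d j (ig i) = -(kr i j * (zz i * ig i) * ig i) := by
  have h := congrArg (d j) (gg_ig i)
  rw [d_mul, d_one, d_gg] at h
  linear_combination ig i * h - d j (ig i) * gg_ig i

/-! ### The operators Dh -/

noncomputable def dh (j : Fin 3) : R →ₗ[ℝ] R := d j ∘ₗ LinearMap.mulLeft ℝ (gg j)

theorem dh_eq (j : Fin 3) (u : R) : dh j u = gg j * d j u + zz j * u := by
  show d j (gg j * u) = _
  rw [d_mul, d_gg]
  simp only [kr, if_true]
  ring

theorem dh_val (j : Fin 3) (u : R) : (dh j u).1 = Dh j u.1 := by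
  show pd j (fun z => (gg j).1 z * u.1 z) = _
  rw [gg_val]; rfl

noncomputable def dhw (β : List (Fin 3)) (u : R) : R := wd (fun j => dh j) β u

theorem dhw_val (β : List (Fin 3)) (u : R) : (dhw β u).1 = Dhl β u.1 := by
  induction β generalizing u with
  | nil => rfl
  | cons j β ih => exact (ih (dh j u)).trans (by rw [dh_val]; rfl)

theorem d_eq_dh (j : Fin 3) (u : R) : d j u = ig j * dh j u - zz j * ig j * u := by
  rw [dh_eq]
  linear_combination (-d j u) * gg_ig j

theorem dh_mul (l : Fin 3) (c y : R) : dh l (c * y) = c * dh l y + gg l * d l c * y := by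
  rw [dh_eq, dh_eq, d_mul]; ring

theorem kr_gg (a j : Fin 3) : kr j a * gg a = kr j a * gg j := by
  unfold kr
  split_ifs with h
  · rw [h]
  · simp

theorem d_dh (a j : Fin 3) (y : R) : d a (dh j y) =
    dh j (d a y) + kr j a * (zz j * ig j) * dh j y + kr j a * (ig j - 1) * y := by
  rw [dh_eq, dh_eq, map_add, d_mul, d_mul, d_gg, d_zz, d_comm a j]
  linear_combination (-(kr j a * zz j * d j y) - kr j a * y - kr j a * y) * gg_ig j -
    kr j a * ig j * y * zz_sq j

theorem gd_al (l j : Fin 3) : gg l * d l (zz j * ig j) = kr j l * (ig j - 1) := by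
  rw [d_mul, d_zz, d_ig]
  linear_combination (ig j - zz j * zz j * ig j * ig j) * kr_gg l j +
    kr j l * (1 - zz j * zz j * ig j - 2) * gg_ig j - kr j l * ig j * zz_sq j

theorem gd_ga (l j : Fin 3) : gg l * d l (ig j - 1) = -(kr j l * (zz j * ig j)) := by
  rw [map_sub, d_one, d_ig]
  linear_combination (-(zz j * ig j * ig j)) * kr_gg l j - kr j l * zz j * ig j * gg_ig j

theorem dh_comm (j l : Fin 3) (y : R) : dh j (dh l y) = dh l (dh j y) := by
  by_cases h : j = l
  · rw [h]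
  have k1 : kr j l = 0 := if_neg h
  have k2 : kr l j = 0 := if_neg (Ne.symm h)
  simp only [dh_eq, map_add, d_mul, d_gg, d_zz, k1, k2, d_comm j l]
  ring

end Vale.Agent.P354S
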